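import Mathlib.Algebra.BigOperators.Finsupp.Basic
import Mathlib.Algebra.Order.BigOperators.Group.Finset
import Mathlib.Tactic

/-!
# P257 / H327: monomials of `E(h_{i,j}) ⊗ P(b_{i,j})`

The index `(i, j)` stands for `h_{i+1,j}` (filtration `1`, weight `p^j + ... + p^{i+j}`) and
`b_{i+1,j}` (filtration `2`, weight `p` times that).
-/

open Finset

namespace Vale.Agent.P257.H327

/-- the weight `p^j + ... + p^{i+j}` of `h_{i+1,j}` -/
def wt (p : ℕ) (a : ℕ × ℕ) : ℕ := ∑ l ∈ range (a.1 + 1), p ^ (a.2 + l)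

/-- a monomial of `E(h_{i,j}) ⊗ P(b_{i,j})` -/
@[ext] structure Mon where
  /-- the exterior factors -/
  h : Finset (ℕ × ℕ)
  /-- the exponents of the polynomial factors -/
  b : (ℕ × ℕ) →₀ ℕ

/-- the triangle of indices `(i, j)` with `i + j < N` -/
def idx : ℕ → Finset (ℕ × ℕ)
  | 0 => ∅
  | n + 1 => idx n ∪ (range (n + 1)).image (fun i => (i, n - i))

theorem mem_idx {N : ℕ} {a : ℕ × ℕ} : a ∈ idx N ↔ a.1 + a.2 < N := by
  induction N with
  | zero => simp [idx]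
  | succ n ih =>
    rw [idx, mem_union, ih, mem_image]
    constructor
    · rintro (h | ⟨i, hi, rfl⟩)
      · omega
      · rw [mem_range] at hi
        simp only
        omega
    · intro h
      by_cases h' : a.1 + a.2 < n
      · exact Or.inl h'
      · refine Or.inr ⟨a.1, by rw [mem_range]; omega, ?_⟩
        ext
        · rfl
        · simp only
          omega

namespace Mon

/-- the filtration (cohomological degree) -/
def s (x : Mon) : ℕ := x.h.card + 2 * x.b.sum (fun _ n => n)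

/-- the weight -/
def W (p : ℕ) (x : Mon) : ℕ := ∑ a ∈ x.h, wt p a + p * x.b.sum (fun a n => n * wt p a)

/-- indicator of the exterior part -/
def e (x : Mon) (a : ℕ × ℕ) : ℤ := if a ∈ x.h then 1 else 0

/-- exponents of the polynomial part, as integers -/
def m (x : Mon) (a : ℕ × ℕ) : ℤ := (x.b a : ℤ)

theorem e_nonneg (x : Mon) (a : ℕ × ℕ) : 0 ≤ x.e a := by unfold e; split_ifs <;> simp

theorem e_le_one (x : Mon) (a : ℕ × ℕ) : x.e a ≤ 1 := by unfold e; split_ifs <;> simp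

theorem m_nonneg (x : Mon) (a : ℕ × ℕ) : 0 ≤ x.m a := by unfold m; positivity

theorem e_eq_one {x : Mon} {a : ℕ × ℕ} : x.e a = 1 ↔ a ∈ x.h := by
  unfold e; split_ifs with h <;> simp [h]

theorem e_eq_zero {x : Mon} {a : ℕ × ℕ} : x.e a = 0 ↔ a ∉ x.h := by
  unfold e; split_ifs with h <;> simp [h]

theorem pow_le_wt (p : ℕ) (a : ℕ × ℕ) : p ^ (a.1 + a.2) ≤ wt p a := by
  unfold wt
  have := single_le_sum (f := fun l => p ^ (a.2 + l)) (s := range (a.1 + 1))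
    (fun _ _ => Nat.zero_le _) (self_mem_range_succ a.1)
  simpa [add_comm] using this

theorem h_sub {p N : ℕ} (hp : 2 ≤ p) {x : Mon} (hW : x.W p < p ^ N) : x.h ⊆ idx N := by
  intro a ha
  rw [mem_idx]
  have h1 : wt p a ≤ x.W p := by
    unfold W
    have := single_le_sum (f := fun a => wt p a) (s := x.h) (fun _ _ => Nat.zero_le _) ha
    omega
  have h2 := (pow_le_wt p a).trans h1
  exact (Nat.pow_lt_pow_iff_right (by omega)).1 (lt_of_le_of_lt h2 hW)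

theorem b_sub {p N : ℕ} (hp : 2 ≤ p) {x : Mon} (hW : x.W p < p ^ (N + 1)) :
    x.b.support ⊆ idx N := by
  intro a ha
  rw [mem_idx]
  have h1 : p * wt p a ≤ x.W p := by
    unfold W
    have := single_le_sum (f := fun a => x.b a * wt p a) (s := x.b.support)
      (fun _ _ => Nat.zero_le _) ha
    have h3 : wt p a ≤ x.b a * wt p a := by
      have : 1 ≤ x.b a := Nat.one_le_iff_ne_zero.2 (Finsupp.mem_support_iff.1 ha)
      nlinarith [Nat.zero_le (wt p a)]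
    have h4 : p * wt p a ≤ p * x.b.sum (fun a n => n * wt p a) :=
      Nat.mul_le_mul_left _ (h3.trans this)
    omega
  have h2 := (Nat.mul_le_mul_left p (pow_le_wt p a)).trans h1
  have h3 : p ^ (a.1 + a.2 + 1) < p ^ (N + 1) := by
    refine lt_of_le_of_lt ?_ hW
    rw [pow_succ, mul_comm]
    exact h2
  have := (Nat.pow_lt_pow_iff_right (by omega)).1 h3
  omega

theorem s_eq {x : Mon} {N M : ℕ} (h1 : x.h ⊆ idx N) (h2 : x.b.support ⊆ idx M) :
    (x.s : ℤ) = ∑ a ∈ idx N, x.e a + 2 * ∑ a ∈ idx M, x.m a := by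
  unfold s
  push_cast
  congr 1
  · unfold e
    rw [sum_ite, sum_const_zero, add_zero, sum_const, nsmul_eq_mul, mul_one]
    congr 2
    ext a
    simp only [mem_filter]
    exact ⟨fun h => ⟨h1 h, h⟩, fun h => h.2⟩
  · congr 1
    unfold Finsupp.sum
    push_cast
    apply sum_subset h2
    intro a _ ha
    simp [Finsupp.notMem_support_iff.1 ha]

theorem W_eq {p : ℕ} {x : Mon} {N M : ℕ} (h1 : x.h ⊆ idx N) (h2 : x.b.support ⊆ idx M) :
    (x.W p : ℤ) = ∑ a ∈ idx N, x.e a * wt p a + p * ∑ a ∈ idx M, x.m a * wt p a := by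
  unfold W
  push_cast
  congr 1
  · unfold e
    have : ∀ a ∈ idx N, (if a ∈ x.h then (1:ℤ) else 0) * (wt p a : ℤ) =
        if a ∈ x.h then (wt p a : ℤ) else 0 := by
      intro a _
      split_ifs <;> simp
    rw [sum_congr rfl this, sum_ite, sum_const_zero, add_zero]
    apply sum_congr _ (fun _ _ => rfl)
    ext a
    simp only [mem_filter]
    exact ⟨fun h => ⟨h1 h, h⟩, fun h => h.2⟩
  · congr 1
    unfold Finsupp.sum
    push_cast
    apply sum_subset h2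
    intro a _ ha
    simp [Finsupp.notMem_support_iff.1 ha]

theorem ext_idx {x y : Mon} {N M : ℕ} (h1 : x.h ⊆ idx N) (h2 : x.b.support ⊆ idx M)
    (h1' : y.h ⊆ idx N) (h2' : y.b.support ⊆ idx M) (he : ∀ a ∈ idx N, x.e a = y.e a)
    (hm : ∀ a ∈ idx M, x.m a = y.m a) : x = y := by
  apply Mon.ext
  · ext a
    by_cases ha : a ∈ idx N
    · rw [← e_eq_one, ← e_eq_one, he a ha]
    · exact ⟨fun h => absurd (h1 h) ha, fun h => absurd (h1' h) ha⟩
  · ext a
    by_cases ha : a ∈ idx M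
    · have := hm a ha
      simpa [m] using this
    · rw [Finsupp.notMem_support_iff.1 (fun h => ha (h2 h)),
        Finsupp.notMem_support_iff.1 (fun h => ha (h2' h))]

end Mon

theorem sum_idx3 (f : ℕ × ℕ → ℤ) : ∑ a ∈ idx 3, f a =
    f (0, 0) + f (0, 1) + f (0, 2) + f (1, 0) + f (1, 1) + f (2, 0) := by
  have : idx 3 = {(0, 0), (0, 1), (0, 2), (1, 0), (1, 1), (2, 0)} := by decide
  rw [this]
  simp [sum_insert, add_assoc]

theorem sum_idx4 (f : ℕ × ℕ → ℤ) : ∑ a ∈ idx 4, f a =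
    f (0, 0) + f (0, 1) + f (0, 2) + f (0, 3) + f (1, 0) + f (1, 1) + f (1, 2) + f (2, 0) +
      f (2, 1) + f (3, 0) := by
  have : idx 4 = {(0, 0), (0, 1), (0, 2), (0, 3), (1, 0), (1, 1), (1, 2), (2, 0), (2, 1),
    (3, 0)} := by decide
  rw [this]
  simp [sum_insert, add_assoc]

end Vale.Agent.P257.H327

namespace Vale.Agent.P257.H327

namespace Mon

theorem s_eq4 {p : ℕ} (hp : 2 ≤ p) {x : Mon} (hW : x.W p < p ^ 4) :
    (x.s : ℤ) = x.e (0, 0) + x.e (0, 1) + x.e (0, 2) + x.e (0, 3) + x.e (1, 0) + x.e (1, 1) +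
      x.e (1, 2) + x.e (2, 0) + x.e (2, 1) + x.e (3, 0) +
      2 * (x.m (0, 0) + x.m (0, 1) + x.m (0, 2) + x.m (1, 0) + x.m (1, 1) + x.m (2, 0)) := by
  rw [s_eq (h_sub hp hW) (b_sub hp hW), sum_idx4, sum_idx3]

theorem W_eq4 {p : ℕ} (hp : 2 ≤ p) {x : Mon} (hW : x.W p < p ^ 4) :
    (x.W p : ℤ) = (x.e (0, 0) + x.e (1, 0) + x.e (2, 0) + x.e (3, 0)) +
      p * (x.e (0, 1) + x.e (1, 0) + x.e (1, 1) + x.e (2, 0) + x.e (2, 1) + x.e (3, 0) +
        x.m (0, 0) + x.m (1, 0) + x.m (2, 0)) +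
      p ^ 2 * (x.e (0, 2) + x.e (1, 1) + x.e (1, 2) + x.e (2, 0) + x.e (2, 1) + x.e (3, 0) +
        x.m (0, 1) + x.m (1, 0) + x.m (1, 1) + x.m (2, 0)) +
      p ^ 3 * (x.e (0, 3) + x.e (1, 2) + x.e (2, 1) + x.e (3, 0) + x.m (0, 2) + x.m (1, 1) +
        x.m (2, 0)) := by
  rw [W_eq (h_sub hp hW) (b_sub hp hW), sum_idx4, sum_idx3]
  simp only [wt, sum_range_succ, sum_range_zero]
  push_cast
  ring

/-- the monomial with exterior factors `h` and polynomial part `b10^x0 b11^x1 b12^x2 b20^y0 b21^y1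
b30^z` -/
noncomputable def mk4 (h : Finset (ℕ × ℕ)) (x0 x1 x2 y0 y1 z : ℕ) : Mon where
  h := h
  b := Finsupp.single (0, 0) x0 + Finsupp.single (0, 1) x1 + Finsupp.single (0, 2) x2 +
    Finsupp.single (1, 0) y0 + Finsupp.single (1, 1) y1 + Finsupp.single (2, 0) z

theorem mk4_b_sub (h : Finset (ℕ × ℕ)) (x0 x1 x2 y0 y1 z : ℕ) :
    (mk4 h x0 x1 x2 y0 y1 z).b.support ⊆ idx 3 := by
  intro a ha
  by_contra hc
  rw [mem_idx] at hc
  apply Finsupp.mem_support_iff.1 ha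
  simp only [mk4, Finsupp.add_apply, Finsupp.single_apply]
  have h1 : (0, 0) ≠ a := by rintro rfl; simp at hc
  have h2 : (0, 1) ≠ a := by rintro rfl; simp at hc
  have h3 : (0, 2) ≠ a := by rintro rfl; simp at hc
  have h4 : (1, 0) ≠ a := by rintro rfl; simp at hc
  have h5 : (1, 1) ≠ a := by rintro rfl; simp at hc
  have h6 : (2, 0) ≠ a := by rintro rfl; simp at hc
  simp [h1, h2, h3, h4, h5, h6]

theorem eq_mk4 {p : ℕ} (hp : 2 ≤ p) {x : Mon} (hW : x.W p < p ^ 4) (h : Finset (ℕ × ℕ))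
    (hh : h ⊆ idx 4) (x0 x1 x2 y0 y1 z : ℕ)
    (he : ∀ a ∈ idx 4, x.e a = if a ∈ h then 1 else 0)
    (h0 : x.m (0, 0) = x0) (h1 : x.m (0, 1) = x1) (h2 : x.m (0, 2) = x2)
    (h3 : x.m (1, 0) = y0) (h4 : x.m (1, 1) = y1) (h5 : x.m (2, 0) = z) :
    x = mk4 h x0 x1 x2 y0 y1 z := by
  apply ext_idx (h_sub hp hW) (b_sub hp hW) hh (mk4_b_sub _ _ _ _ _ _ _)
  · intro a ha
    rw [he a ha]
    rfl
  · intro a ha
    have : idx 3 = {(0, 0), (0, 1), (0, 2), (1, 0), (1, 1), (2, 0)} := by decide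
    rw [this] at ha
    simp only [mem_insert, mem_singleton] at ha
    rcases ha with rfl | rfl | rfl | rfl | rfl | rfl
    · rw [h0]; simp [mk4, m]
    · rw [h1]; simp [mk4, m]
    · rw [h2]; simp [mk4, m]
    · rw [h3]; simp [mk4, m]
    · rw [h4]; simp [mk4, m]
    · rw [h5]; simp [mk4, m]

theorem forall_idx4 {P : ℕ × ℕ → Prop} (h : P (0, 0) ∧ P (0, 1) ∧ P (0, 2) ∧ P (0, 3) ∧ P (1, 0) ∧
    P (1, 1) ∧ P (1, 2) ∧ P (2, 0) ∧ P (2, 1) ∧ P (3, 0)) : ∀ a ∈ idx 4, P a := by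
  intro a ha
  have : idx 4 = {(0, 0), (0, 1), (0, 2), (0, 3), (1, 0), (1, 1), (1, 2), (2, 0), (2, 1),
    (3, 0)} := by decide
  rw [this] at ha
  simp only [mem_insert, mem_singleton] at ha
  rcases ha with rfl | rfl | rfl | rfl | rfl | rfl | rfl | rfl | rfl | rfl
  all_goals tauto

end Mon

end Vale.Agent.P257.H327

namespace Vale.Agent.P257.H327

namespace Mon

theorem wt_pos {p : ℕ} (hp : 2 ≤ p) (a : ℕ × ℕ) : 1 ≤ wt p a :=
  le_trans (Nat.one_le_pow _ _ (by omega)) (pow_le_wt p a)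

theorem p_le_wt {p : ℕ} (_hp : 2 ≤ p) {a : ℕ × ℕ} (ha : a ≠ (0, 0)) : p ≤ wt p a := by
  refine le_trans ?_ (pow_le_wt p a)
  apply Nat.le_self_pow
  intro h
  apply ha
  ext <;> simp <;> omega

/-- the vanishing line -/
theorem line {p : ℕ} (hp : 2 ≤ p) (x : Mon) : p * x.s ≤ 2 * x.W p + (p - 2) := by
  unfold s W
  have h1 : p * x.h.card ≤ 2 * ∑ a ∈ x.h, wt p a + (p - 2) := by
    by_cases h0 : (0, 0) ∈ x.h
    · rw [← Finset.insert_erase h0, sum_insert (notMem_erase _ _),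
        card_insert_of_notMem (notMem_erase _ _)]
      have : ∑ a ∈ x.h.erase (0, 0), p ≤ ∑ a ∈ x.h.erase (0, 0), wt p a :=
        sum_le_sum fun a ha => p_le_wt hp (ne_of_mem_erase ha)
      rw [sum_const, smul_eq_mul] at this
      have h2 := wt_pos hp (0, 0)
      rw [Nat.mul_add, Nat.mul_one, mul_comm p]
      have h3 : (x.h.erase (0, 0)).card * p + (x.h.erase (0, 0)).card * p ≤
        2 * ∑ a ∈ x.h.erase (0, 0), wt p a := by omega
      omega
    · have : ∑ a ∈ x.h, p ≤ ∑ a ∈ x.h, wt p a :=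
        sum_le_sum fun a ha => p_le_wt hp (fun h => h0 (h ▸ ha))
      rw [sum_const, smul_eq_mul] at this
      rw [mul_comm p]
      omega
  have h2 : x.b.sum (fun _ n => n) ≤ x.b.sum (fun a n => n * wt p a) := by
    unfold Finsupp.sum
    apply sum_le_sum
    intro a _
    exact Nat.le_mul_of_pos_right _ (wt_pos hp a)
  have h3 := Nat.mul_le_mul_left p h2
  rw [Nat.mul_add]
  have h4 : p * (2 * x.b.sum fun _ n => n) = 2 * (p * x.b.sum fun _ n => n) := by ring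
  omega

end Mon

end Vale.Agent.P257.H327

namespace Vale.Agent.P257.H327

namespace Mon

/-- integer indicator of membership -/
def ind (h : Finset (ℕ × ℕ)) (a : ℕ × ℕ) : ℤ := if a ∈ h then 1 else 0

theorem eq_vals {p : ℕ} (hp : 2 ≤ p) {x : Mon} (hW : x.W p < p ^ 4) {h : Finset (ℕ × ℕ)}
    (hh : h ⊆ idx 4) {x0 x1 x2 y0 y1 z : ℕ}
    (h0 : x.m (0, 0) = x0) (h1 : x.m (0, 1) = x1) (h2 : x.m (0, 2) = x2)
    (h3 : x.m (1, 0) = y0) (h4 : x.m (1, 1) = y1) (h5 : x.m (2, 0) = z)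
    (g0 : x.e (0, 0) = ind h (0, 0)) (g1 : x.e (0, 1) = ind h (0, 1))
    (g2 : x.e (0, 2) = ind h (0, 2)) (g3 : x.e (0, 3) = ind h (0, 3))
    (g4 : x.e (1, 0) = ind h (1, 0)) (g5 : x.e (1, 1) = ind h (1, 1))
    (g6 : x.e (1, 2) = ind h (1, 2)) (g7 : x.e (2, 0) = ind h (2, 0))
    (g8 : x.e (2, 1) = ind h (2, 1)) (g9 : x.e (3, 0) = ind h (3, 0)) :
    x = mk4 h x0 x1 x2 y0 y1 z :=
  eq_mk4 hp hW h hh x0 x1 x2 y0 y1 z
    (forall_idx4 ⟨g0, g1, g2, g3, g4, g5, g6, g7, g8, g9⟩) h0 h1 h2 h3 h4 h5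

end Mon

end Vale.Agent.P257.H327

namespace Vale.Agent.P257.H327

theorem sum_idx2 (f : ℕ × ℕ → ℤ) : ∑ a ∈ idx 2, f a =
    f (0, 0) + f (0, 1) + f (1, 0) := by
  have : idx 2 = {(0, 0), (0, 1), (1, 0)} := by decide
  rw [this]
  simp [sum_insert, add_assoc]

namespace Mon

theorem s_eq3 {p : ℕ} (hp : 2 ≤ p) {x : Mon} (hW : x.W p < p ^ 3) :
    (x.s : ℤ) = x.e (0, 0) + x.e (0, 1) + x.e (0, 2) + x.e (1, 0) + x.e (1, 1) + x.e (2, 0) +
      2 * (x.m (0, 0) + x.m (0, 1) + x.m (1, 0)) := by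
  rw [s_eq (h_sub hp hW) (b_sub hp hW), sum_idx3, sum_idx2]

theorem W_eq3 {p : ℕ} (hp : 2 ≤ p) {x : Mon} (hW : x.W p < p ^ 3) :
    (x.W p : ℤ) = (x.e (0, 0) + x.e (1, 0) + x.e (2, 0)) +
      p * (x.e (0, 1) + x.e (1, 0) + x.e (1, 1) + x.e (2, 0) + x.m (0, 0) + x.m (1, 0)) +
      p ^ 2 * (x.e (0, 2) + x.e (1, 1) + x.e (2, 0) + x.m (0, 1) + x.m (1, 0)) := by
  rw [W_eq (h_sub hp hW) (b_sub hp hW), sum_idx3, sum_idx2]
  simp only [wt, sum_range_succ, sum_range_zero]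
  push_cast
  ring

/-- the monomial with exterior factors `h` and polynomial part `b10^x0 b11^x1 b20^y0` -/
noncomputable def mk3 (h : Finset (ℕ × ℕ)) (x0 x1 y0 : ℕ) : Mon where
  h := h
  b := Finsupp.single (0, 0) x0 + Finsupp.single (0, 1) x1 + Finsupp.single (1, 0) y0

theorem mk3_b_sub (h : Finset (ℕ × ℕ)) (x0 x1 y0 : ℕ) :
    (mk3 h x0 x1 y0).b.support ⊆ idx 2 := by
  intro a ha
  by_contra hc
  rw [mem_idx] at hc
  apply Finsupp.mem_support_iff.1 ha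
  simp only [mk3, Finsupp.add_apply, Finsupp.single_apply]
  have h1 : (0, 0) ≠ a := by rintro rfl; simp at hc
  have h2 : (0, 1) ≠ a := by rintro rfl; simp at hc
  have h4 : (1, 0) ≠ a := by rintro rfl; simp at hc
  simp [h1, h2, h4]

theorem eq_vals3 {p : ℕ} (hp : 2 ≤ p) {x : Mon} (hW : x.W p < p ^ 3) {h : Finset (ℕ × ℕ)}
    (hh : h ⊆ idx 3) {x0 x1 y0 : ℕ}
    (h0 : x.m (0, 0) = x0) (h1 : x.m (0, 1) = x1) (h2 : x.m (1, 0) = y0)
    (g0 : x.e (0, 0) = ind h (0, 0)) (g1 : x.e (0, 1) = ind h (0, 1))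
    (g2 : x.e (0, 2) = ind h (0, 2))
    (g3 : x.e (1, 0) = ind h (1, 0)) (g4 : x.e (1, 1) = ind h (1, 1))
    (g5 : x.e (2, 0) = ind h (2, 0)) :
    x = mk3 h x0 x1 y0 := by
  apply ext_idx (h_sub hp hW) (b_sub hp hW) hh (mk3_b_sub _ _ _ _)
  · intro a ha
    have : idx 3 = {(0, 0), (0, 1), (0, 2), (1, 0), (1, 1), (2, 0)} := by decide
    rw [this] at ha
    simp only [mem_insert, mem_singleton] at ha
    rcases ha with rfl | rfl | rfl | rfl | rfl | rfl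
    · exact g0
    · exact g1
    · exact g2
    · exact g3
    · exact g4
    · exact g5
  · intro a ha
    have : idx 2 = {(0, 0), (0, 1), (1, 0)} := by decide
    rw [this] at ha
    simp only [mem_insert, mem_singleton] at ha
    rcases ha with rfl | rfl | rfl
    · rw [h0]; simp [mk3, m]
    · rw [h1]; simp [mk3, m]
    · rw [h2]; simp [mk3, m]

end Mon

end Vale.Agent.P257.H327
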