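import Vale.Agent.P257.H327.Enum5

open Finset

namespace Vale.Agent.P257.H327

open Mon

variable {p w0 w1 w2 s a0 a1 a2 a3 c0 c1 c2 d0 d1 f x0 x1 x2 y0 y1 z β γ : ℤ}

theorem alpha_γ (h : Dig p 3 w1 w2 s a0 a1 a2 a3 c0 c1 c2 d0 d1 f x0 x1 x2 y0 y1 z β γ)
    (hp : 11 ≤ p) (h1 : 2 * w1 - s = 5 - 2 * w2) (hw : w2 ≤ p) : γ = 0 := by
  have he := h.eq
  obtain ⟨ha0, ha1, ha2, ha3, hc0, hc1, hc2, hd0, hd1, hf, ha0', ha1', ha2', ha3', hc0', hc1',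
    hc2', hd0', hd1', hf', hx0, hx1, hx2, hy0, hy1, hz, e0, e2, e3, e1, hs⟩ := h
  have hγ0 : 0 ≤ γ := by linarith
  have hβ : -p ≤ β := by linarith
  have i1 : 0 ≤ (2 * p - 2) * (β + p) := by apply mul_nonneg <;> linarith
  by_contra hc
  have hc' : 1 ≤ γ := by omega
  have i2 : 0 ≤ (2 * p ^ 2 - 2) * (γ - 1) := by
    apply mul_nonneg
    · nlinarith
    · linarith
  clear e1 hs
  have hx1 : x1 = w2 + β - (a2 + c1 + c2 + d0 + d1 + f + y0 + y1 + z) := by linarith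
  subst hx1
  linarith

theorem alpha_β (h : Dig p 3 w1 w2 s a0 a1 a2 a3 c0 c1 c2 d0 d1 f x0 x1 x2 y0 y1 z β γ)
    (hp : 11 ≤ p) (h1 : 2 * w1 - s = 5 - 2 * w2) (hw : w2 ≤ p) (hγ : γ = 0)
    (ht : Tail a3 c2 d1 f x2 y1 z) : β = 0 := by
  have he := h.eq
  obtain ⟨ha0, ha1, ha2, ha3, hc0, hc1, hc2, hd0, hd1, hf, ha0', ha1', ha2', ha3', hc0', hc1',
    hc2', hd0', hd1', hf', hx0, hx1, hx2, hy0, hy1, hz, e0, e2, e3, e1, hs⟩ := h
  obtain ⟨rfl, rfl, rfl, rfl, rfl, rfl, rfl⟩ := ht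
  subst hγ
  have g1 : a0 = 1 := by linarith
  have g2 : c0 = 1 := by linarith
  have g3 : d0 = 1 := by linarith
  subst g1 g2 g3
  clear e1 hs
  have hx1' : x1 = w2 + β - (a2 + c1 + 1 + y0) := by linarith
  subst hx1'
  have hβ1 : β ≤ 0 := by
    by_contra hc
    have hc' : 1 ≤ β := by omega
    have i3 : (2 * p - 2) * 1 ≤ (2 * p - 2) * β := by
      apply mul_le_mul_of_nonneg_left <;> linarith
    linarith
  have hβ2 : 0 ≤ β := by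
    by_contra hc
    have hc' : β ≤ -1 := by omega
    have i3 : (2 * p) * (β + 1) ≤ (2 * p) * 0 := by
      apply mul_le_mul_of_nonneg_left <;> linarith
    linarith
  linarith

theorem alpha_int (h : Dig p 3 w1 w2 s a0 a1 a2 a3 c0 c1 c2 d0 d1 f x0 x1 x2 y0 y1 z β γ)
    (hp : 11 ≤ p) (h1 : 2 * w1 - s = 5 - 2 * w2) (hw : w2 ≤ p) : Tail a3 c2 d1 f x2 y1 z ∧
    ((a0 = 1 ∧ a1 = 0 ∧ a2 = 0 ∧ c0 = 1 ∧ c1 = 0 ∧ d0 = 1 ∧ x0 = w1 - 3 ∧ x1 = w2 - 2 ∧ y0 = 1) ∨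
     (a0 = 1 ∧ a1 = 1 ∧ a2 = 1 ∧ c0 = 1 ∧ c1 = 0 ∧ d0 = 1 ∧ x0 = w1 - 3 ∧ x1 = w2 - 2 ∧
      y0 = 0)) := by
  obtain rfl := alpha_γ h hp h1 hw
  have ht := h.tail rfl
  obtain rfl := alpha_β h hp h1 hw rfl ht
  refine ⟨ht, ?_⟩
  have he := h.eq
  obtain ⟨ha0, ha1, ha2, ha3, hc0, hc1, hc2, hd0, hd1, hf, ha0', ha1', ha2', ha3', hc0', hc1',
    hc2', hd0', hd1', hf', hx0, hx1, hx2, hy0, hy1, hz, e0, e2, e3, e1, hs⟩ := h
  obtain ⟨rfl, rfl, rfl, rfl, rfl, rfl, rfl⟩ := ht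
  clear hs
  have g1 : a0 = 1 := by linarith
  have g2 : c0 = 1 := by linarith
  have g3 : d0 = 1 := by linarith
  subst g1 g2 g3
  have he' : a1 + a2 + 3 * c1 + 2 * y0 = 2 := by linarith
  have g4 : c1 = 0 := by omega
  subst g4
  have f1 : (a1 = 0 ∧ a2 = 0) ∨ (a1 = 1 ∧ a2 = 1) := by omega
  rcases f1 with ⟨rfl, rfl⟩ | ⟨rfl, rfl⟩
  · left; refine ⟨rfl, rfl, rfl, rfl, rfl, rfl, ?_, ?_, ?_⟩ <;> linarith
  · right; refine ⟨rfl, rfl, rfl, rfl, rfl, rfl, ?_, ?_, ?_⟩ <;> linarith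

theorem bounds_of (p K : ℕ) (hp : 11 ≤ p) (hK : K + p + 2 ≤ p ^ 2) :
    3 * p ^ 2 + 4 * p + p * K < p ^ 4 := by
  have h1 : p * (K + p + 2) ≤ p * p ^ 2 := Nat.mul_le_mul_left _ hK
  have h2 : 11 * p ^ 3 ≤ p ^ 4 := by
    rw [pow_succ p 3, mul_comm]; exact Nat.mul_le_mul_left _ hp
  have h3 : 11 * p ^ 2 ≤ p ^ 3 := by
    rw [pow_succ p 2, mul_comm]; exact Nat.mul_le_mul_left _ hp
  have h4 : 11 * p ≤ p ^ 2 := by nlinarith
  nlinarith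

/-- The monomials in `(5 + 2K, 2p^2+4p+1+pK)`, `K ≤ p^2-p-2`: `b10^K` times the two monomials of
`κ`. -/
theorem enum_kappa (p K : ℕ) (hp : 11 ≤ p) (hK : K + p + 2 ≤ p ^ 2) (x : Mon)
    (hs : x.s = 5 + 2 * K) (hW : x.W p = 2 * p ^ 2 + 4 * p + 1 + p * K) :
    x = mk4 {(0,1), (1,0), (1,1)} K 0 0 1 0 0 ∨ x = mk4 {(0,1), (1,1), (2,0)} (K + 1) 0 0 0 0 0 := by
  have hp2 : 2 ≤ p := by omega
  have hW4 : x.W p < p ^ 4 := by
    have := bounds_of p K hp hK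
    rw [hW]; nlinarith
  obtain ⟨β, γ, hd⟩ := exists_dig p 1 (4 + K) 2 hp (by norm_num) (by norm_num) x hW4
    (by rw [hW]; push_cast; ring)
  have hs' : (x.s : ℤ) = 5 + 2 * K := by exact_mod_cast hs
  rw [hs'] at hd
  obtain ⟨⟨t1, t2, t3, t4, t5, t6, t7⟩, h⟩ := kappa_int hd (by exact_mod_cast hp) (by ring)
  rcases h with ⟨g1, g2, g3, g4, g5, g6, g7, g8, g9⟩ | ⟨g1, g2, g3, g4, g5, g6, g7, g8, g9⟩
  · exact Or.inl (eq_vals hp2 hW4 (by decide) (g7.trans (by ring))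
      (g8.trans (Nat.cast_zero).symm) (t5.trans (Nat.cast_zero).symm)
      (g9.trans (Nat.cast_one).symm) (t6.trans (Nat.cast_zero).symm)
      (t7.trans (Nat.cast_zero).symm) g1 g2 g3 t1 g4 g5 t2 g6 t3 t4)
  · exact Or.inr (eq_vals hp2 hW4 (by decide) (g7.trans (by push_cast; ring))
      (g8.trans (Nat.cast_zero).symm) (t5.trans (Nat.cast_zero).symm)
      (g9.trans (Nat.cast_zero).symm) (t6.trans (Nat.cast_zero).symm)
      (t7.trans (Nat.cast_zero).symm) g1 g2 g3 t1 g4 g5 t2 g6 t3 t4)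

/-- The monomials in `(7 + 2K, 3p^2+4p+pK)`, `K ≤ p^2-p-2`. -/
theorem enum_gamma (p K : ℕ) (hp : 11 ≤ p) (hK : K + p + 2 ≤ p ^ 2) (x : Mon)
    (hs : x.s = 7 + 2 * K) (hW : x.W p = 3 * p ^ 2 + 4 * p + p * K) :
    x = mk4 {(0,1)} K 0 0 3 0 0 ∨ x = mk4 {(1,1)} (K + 1) 0 0 2 0 0 ∨
    x = mk4 {(0,1), (0,2), (1,1)} (K + 1) 0 0 1 0 0 := by
  have hp2 : 2 ≤ p := by omega
  have hW4 : x.W p < p ^ 4 := by
    have := bounds_of p K hp hK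
    rw [hW]; exact this
  obtain ⟨β, γ, hd⟩ := exists_dig p 0 (4 + K) 3 hp (by norm_num) (by norm_num) x hW4
    (by rw [hW]; push_cast; ring)
  have hs' : (x.s : ℤ) = 7 + 2 * K := by exact_mod_cast hs
  rw [hs'] at hd
  obtain ⟨⟨t1, t2, t3, t4, t5, t6, t7⟩, h⟩ := gamma_int hd (by exact_mod_cast hp) (by ring)
  rcases h with ⟨g1, g2, g3, g4, g5, g6, g7, g8, g9⟩ | ⟨g1, g2, g3, g4, g5, g6, g7, g8, g9⟩ |
    ⟨g1, g2, g3, g4, g5, g6, g7, g8, g9⟩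
  · exact Or.inl (eq_vals hp2 hW4 (by decide) (g7.trans (by ring))
      (g8.trans (Nat.cast_zero).symm) (t5.trans (Nat.cast_zero).symm)
      (g9.trans (by norm_num)) (t6.trans (Nat.cast_zero).symm)
      (t7.trans (Nat.cast_zero).symm) g1 g2 g3 t1 g4 g5 t2 g6 t3 t4)
  · exact Or.inr (Or.inl (eq_vals hp2 hW4 (by decide) (g7.trans (by push_cast; ring))
      (g8.trans (Nat.cast_zero).symm) (t5.trans (Nat.cast_zero).symm)
      (g9.trans (by norm_num)) (t6.trans (Nat.cast_zero).symm)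
      (t7.trans (Nat.cast_zero).symm) g1 g2 g3 t1 g4 g5 t2 g6 t3 t4))
  · exact Or.inr (Or.inr (eq_vals hp2 hW4 (by decide) (g7.trans (by push_cast; ring))
      (g8.trans (Nat.cast_zero).symm) (t5.trans (Nat.cast_zero).symm)
      (g9.trans (by norm_num)) (t6.trans (Nat.cast_zero).symm)
      (t7.trans (Nat.cast_zero).symm) g1 g2 g3 t1 g4 g5 t2 g6 t3 t4))

/-- The monomials in `(6 + 2K, 2p^2+4p+2+pK)`, `K ≤ p^2-p-2`. -/
theorem enum_beta (p K : ℕ) (hp : 11 ≤ p) (hK : K + p + 2 ≤ p ^ 2) (x : Mon)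
    (hs : x.s = 6 + 2 * K) (hW : x.W p = 2 * p ^ 2 + 4 * p + 2 + p * K) :
    x = mk4 {(0,0), (0,1), (1,0), (1,1)} K 0 0 1 0 0 ∨
    x = mk4 {(0,0), (0,1), (1,1), (2,0)} (K + 1) 0 0 0 0 0 ∨
    x = mk4 {(0,1), (0,2), (1,0), (2,0)} (K + 1) 0 0 0 0 0 ∨
    x = mk4 {(1,0), (2,0)} (K + 1) 0 0 1 0 0 := by
  have hp2 : 2 ≤ p := by omega
  have hW4 : x.W p < p ^ 4 := by
    have := bounds_of p K hp hK
    rw [hW]; nlinarith
  obtain ⟨β, γ, hd⟩ := exists_dig p 2 (4 + K) 2 hp (by norm_num) (by norm_num) x hW4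
    (by rw [hW]; push_cast; ring)
  have hs' : (x.s : ℤ) = 6 + 2 * K := by exact_mod_cast hs
  rw [hs'] at hd
  obtain ⟨⟨t1, t2, t3, t4, t5, t6, t7⟩, h⟩ := beta_int hd (by exact_mod_cast hp) (by ring)
  rcases h with ⟨g1, g2, g3, g4, g5, g6, g7, g8, g9⟩ | ⟨g1, g2, g3, g4, g5, g6, g7, g8, g9⟩ |
    ⟨g1, g2, g3, g4, g5, g6, g7, g8, g9⟩ | ⟨g1, g2, g3, g4, g5, g6, g7, g8, g9⟩
  · exact Or.inl (eq_vals hp2 hW4 (by decide) (g7.trans (by push_cast; ring))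
      (g8.trans (Nat.cast_zero).symm) (t5.trans (Nat.cast_zero).symm)
      (g9.trans (by norm_num)) (t6.trans (Nat.cast_zero).symm)
      (t7.trans (Nat.cast_zero).symm) g1 g2 g3 t1 g4 g5 t2 g6 t3 t4)
  · exact Or.inr (Or.inl (eq_vals hp2 hW4 (by decide) (g7.trans (by push_cast; ring))
      (g8.trans (Nat.cast_zero).symm) (t5.trans (Nat.cast_zero).symm)
      (g9.trans (by norm_num)) (t6.trans (Nat.cast_zero).symm)
      (t7.trans (Nat.cast_zero).symm) g1 g2 g3 t1 g4 g5 t2 g6 t3 t4))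
  · exact Or.inr (Or.inr (Or.inl (eq_vals hp2 hW4 (by decide) (g7.trans (by push_cast; ring))
      (g8.trans (Nat.cast_zero).symm) (t5.trans (Nat.cast_zero).symm)
      (g9.trans (by norm_num)) (t6.trans (Nat.cast_zero).symm)
      (t7.trans (Nat.cast_zero).symm) g1 g2 g3 t1 g4 g5 t2 g6 t3 t4)))
  · exact Or.inr (Or.inr (Or.inr (eq_vals hp2 hW4 (by decide) (g7.trans (by push_cast; ring))
      (g8.trans (Nat.cast_zero).symm) (t5.trans (Nat.cast_zero).symm)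
      (g9.trans (by norm_num)) (t6.trans (Nat.cast_zero).symm)
      (t7.trans (Nat.cast_zero).symm) g1 g2 g3 t1 g4 g5 t2 g6 t3 t4)))

/-- The monomials in `(5 + 2K + 2L, 2p^2+3p+3+pK+p^2L)`, `K ≤ p^2-p-2`, `L ≤ p-2`. -/
theorem enum_alpha (p K L : ℕ) (hp : 11 ≤ p) (hK : K + p + 2 ≤ p ^ 2) (hL : L + 2 ≤ p) (x : Mon)
    (hs : x.s = 5 + 2 * K + 2 * L) (hW : x.W p = 2 * p ^ 2 + 3 * p + 3 + p * K + p ^ 2 * L) :
    x = mk4 {(0,0), (1,0), (2,0)} K L 0 1 0 0 ∨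
    x = mk4 {(0,0), (0,1), (0,2), (1,0), (2,0)} K L 0 0 0 0 := by
  have hp2 : 2 ≤ p := by omega
  have hW4 : x.W p < p ^ 4 := by
    have h1 : p * (K + p + 2) ≤ p * p ^ 2 := Nat.mul_le_mul_left _ hK
    have h5 : p ^ 2 * (L + 2) ≤ p ^ 2 * p := Nat.mul_le_mul_left _ hL
    have h2 : 11 * p ^ 3 ≤ p ^ 4 := by
      rw [pow_succ p 3, mul_comm]; exact Nat.mul_le_mul_left _ hp
    have h3 : 11 * p ^ 2 ≤ p ^ 3 := by
      rw [pow_succ p 2, mul_comm]; exact Nat.mul_le_mul_left _ hp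
    have h4 : 11 * p ≤ p ^ 2 := by nlinarith
    rw [hW]
    nlinarith
  obtain ⟨β, γ, hd⟩ := exists_dig p 3 (3 + K) (2 + L) hp (by norm_num) (by norm_num) x hW4
    (by rw [hW]; push_cast; ring)
  have hs' : (x.s : ℤ) = 5 + 2 * K + 2 * L := by exact_mod_cast hs
  have hL' : (2 : ℤ) + L ≤ p := by have : (L : ℤ) + 2 ≤ p := by exact_mod_cast hL
                                   linarith
  rw [hs'] at hd
  obtain ⟨⟨t1, t2, t3, t4, t5, t6, t7⟩, h⟩ := alpha_int hd (by exact_mod_cast hp) (by ring) hL'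
  rcases h with ⟨g1, g2, g3, g4, g5, g6, g7, g8, g9⟩ | ⟨g1, g2, g3, g4, g5, g6, g7, g8, g9⟩
  · exact Or.inl (eq_vals hp2 hW4 (by decide) (g7.trans (by push_cast; ring))
      (g8.trans (by push_cast; ring)) (t5.trans (Nat.cast_zero).symm)
      (g9.trans (by norm_num)) (t6.trans (Nat.cast_zero).symm)
      (t7.trans (Nat.cast_zero).symm) g1 g2 g3 t1 g4 g5 t2 g6 t3 t4)
  · exact Or.inr (eq_vals hp2 hW4 (by decide) (g7.trans (by push_cast; ring))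
      (g8.trans (by push_cast; ring)) (t5.trans (Nat.cast_zero).symm)
      (g9.trans (by norm_num)) (t6.trans (Nat.cast_zero).symm)
      (t7.trans (Nat.cast_zero).symm) g1 g2 g3 t1 g4 g5 t2 g6 t3 t4)

end Vale.Agent.P257.H327
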