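import Vale.Agent.P257.H327.Enum
import Vale.Agent.P257.H632.Defs

/-!
# P257 / H327: the lists of monomials in the format `EI` of `H632`

`r : EI (ℕ × ℕ)` is the monomial `∏ h_v (v ∈ r.1) · ∏ b_v ^ r.2 v`; `degM r` is its degree and
`levM p (wD p) r` its weight. All statements are uniform in `p ≥ 11`.
-/

open Finset

noncomputable section

namespace Vale.Agent.P257.H327

open Vale.Agent.P257.H632 Mon

/-- the monomial of `r` -/
def ofEI (r : EI (ℕ × ℕ)) : Mon := ⟨r.1, r.2⟩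

theorem s_ofEI (r : EI (ℕ × ℕ)) : (ofEI r).s = degM r := rfl

theorem W_ofEI (p : ℕ) (r : EI (ℕ × ℕ)) : (ofEI r).W p = levM p (wD p) r := rfl

theorem ofEI_eq {r : EI (ℕ × ℕ)} {x : Mon} (h : ofEI r = x) : r = (x.h, x.b) := by
  subst h; rfl

/-- every statement on monomials in the format `EI` -/
theorem forall_EI {P : Finset (ℕ × ℕ) → ((ℕ × ℕ) →₀ ℕ) → Prop} :
    (∀ r : EI (ℕ × ℕ), P r.1 r.2) ↔ ∀ x : Mon, P x.h x.b :=
  ⟨fun h x => h (x.h, x.b), fun h r => h (ofEI r)⟩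

/-! ### degree and level of explicit monomials -/

theorem degM_mk (h : Finset (ℕ × ℕ)) (b : (ℕ × ℕ) →₀ ℕ) :
    degM ((h, b) : EI (ℕ × ℕ)) = h.card + 2 * b.sum fun _ c => c := rfl

theorem levM_mk (p : ℕ) (μ : ℕ × ℕ → ℕ) (h : Finset (ℕ × ℕ)) (b : (ℕ × ℕ) →₀ ℕ) :
    levM p μ (h, b) = ∑ v ∈ h, μ v + p * b.sum fun v c => c * μ v := rfl

theorem sum_single' (μ : ℕ × ℕ → ℕ) (v : ℕ × ℕ) (n : ℕ) :
    ((Finsupp.single v n).sum fun v c => c * μ v) = n * μ v :=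
  Finsupp.sum_single_index (by simp)

theorem sum_add' (μ : ℕ × ℕ → ℕ) (b c : (ℕ × ℕ) →₀ ℕ) :
    ((b + c).sum fun v c => c * μ v) = (b.sum fun v c => c * μ v) + c.sum fun v c => c * μ v :=
  Finsupp.sum_add_index' (fun _ => by simp) (fun _ _ _ => by ring)

/-! ### the lists -/

/-- (alpha) the monomials in `(5, 2p^2+3p+3)` -/
theorem enumE_alpha (p : ℕ) (hp : 11 ≤ p) (r : EI (ℕ × ℕ)) (hs : degM r = 5)
    (hW : levM p (wD p) r = 2 * p ^ 2 + 3 * p + 3) :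
    r = ({(0,0), (1,0), (2,0)}, Finsupp.single (1,0) 1) ∨
    r = ({(0,0), (0,1), (0,2), (1,0), (2,0)}, 0) := by
  have h1 : 0 + p + 2 ≤ p ^ 2 := by nlinarith
  rcases enum_alpha p 0 0 hp h1 (by omega) (ofEI r) hs (by rw [W_ofEI, hW]; ring) with h | h
  · left; rw [ofEI_eq h]; simp [mk4]
  · right; rw [ofEI_eq h]; simp [mk4]

/-- (beta) the monomials in `(6, 2p^2+4p+2)` -/
theorem enumE_beta (p : ℕ) (hp : 11 ≤ p) (r : EI (ℕ × ℕ)) (hs : degM r = 6)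
    (hW : levM p (wD p) r = 2 * p ^ 2 + 4 * p + 2) :
    r = ({(0,0), (0,1), (1,0), (1,1)}, Finsupp.single (1,0) 1) ∨
    r = ({(0,0), (0,1), (1,1), (2,0)}, Finsupp.single (0,0) 1) ∨
    r = ({(0,1), (0,2), (1,0), (2,0)}, Finsupp.single (0,0) 1) ∨
    r = ({(1,0), (2,0)}, Finsupp.single (0,0) 1 + Finsupp.single (1,0) 1) := by
  have h1 : 0 + p + 2 ≤ p ^ 2 := by nlinarith
  rcases enum_beta p 0 hp h1 (ofEI r) hs (by rw [W_ofEI, hW]; ring) with h | h | h | h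
  · left; rw [ofEI_eq h]; simp [mk4]
  · right; left; rw [ofEI_eq h]; simp [mk4]
  · right; right; left; rw [ofEI_eq h]; simp [mk4]
  · right; right; right; rw [ofEI_eq h]; simp [mk4]

/-- (gamma) the monomials in `(7, 3p^2+4p)` -/
theorem enumE_gamma (p : ℕ) (hp : 11 ≤ p) (r : EI (ℕ × ℕ)) (hs : degM r = 7)
    (hW : levM p (wD p) r = 3 * p ^ 2 + 4 * p) :
    r = ({(0,1)}, Finsupp.single (1,0) 3) ∨
    r = ({(1,1)}, Finsupp.single (0,0) 1 + Finsupp.single (1,0) 2) ∨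
    r = ({(0,1), (0,2), (1,1)}, Finsupp.single (0,0) 1 + Finsupp.single (1,0) 1) := by
  have h1 : 0 + p + 2 ≤ p ^ 2 := by nlinarith
  rcases enum_gamma p 0 hp h1 (ofEI r) hs (by rw [W_ofEI, hW]; ring) with h | h | h
  · left; rw [ofEI_eq h]; simp [mk4]
  · right; left; rw [ofEI_eq h]; simp [mk4]
  · right; right; rw [ofEI_eq h]; simp [mk4]

/-- (kappa) the monomials in `(5, 2p^2+4p+1)` -/
theorem enumE_kappa (p : ℕ) (hp : 11 ≤ p) (r : EI (ℕ × ℕ)) (hs : degM r = 5)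
    (hW : levM p (wD p) r = 2 * p ^ 2 + 4 * p + 1) :
    r = ({(0,1), (1,0), (1,1)}, Finsupp.single (1,0) 1) ∨
    r = ({(0,1), (1,1), (2,0)}, Finsupp.single (0,0) 1) := by
  have h1 : 0 + p + 2 ≤ p ^ 2 := by nlinarith
  rcases enum_kappa p 0 hp h1 (ofEI r) hs (by rw [W_ofEI, hW]; ring) with h | h
  · left; rw [ofEI_eq h]; simp [mk4]
  · right; rw [ofEI_eq h]; simp [mk4]

/-- (delta, source) the monomials in `(2p-1, p^3+p^2+p+2)` -/
theorem enumE_delta (p : ℕ) (hp : 11 ≤ p) (r : EI (ℕ × ℕ)) (hs : degM r + 1 = 2 * p)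
    (hW : levM p (wD p) r = p ^ 3 + p ^ 2 + p + 2) :
    r = ({(0,1), (0,2), (1,0), (1,1), (2,0)}, Finsupp.single (1,0) (p - 3)) ∨
    r = ({(1,0), (1,1), (2,0)}, Finsupp.single (1,0) (p - 2)) := by
  rcases enum_v4 p 1 hp le_rfl (ofEI r) (by rw [s_ofEI]; omega) (by rw [W_ofEI, hW]) with
    ⟨-, h | h⟩ | ⟨h, -⟩ | ⟨h, -⟩ | ⟨h, -⟩
  · left; rw [ofEI_eq h]; simp [mk4]
  · right; rw [ofEI_eq h]; simp [mk4]
  all_goals omega

/-- (delta, target of `h_14`) the monomials in `(2p-1, p^4+p^3+p^2+p+2)` -/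
theorem enumE_Y (p : ℕ) (hp : 11 ≤ p) (r : EI (ℕ × ℕ)) (hs : degM r + 1 = 2 * p)
    (hW : levM p (wD p) r = p ^ 4 + p ^ 3 + p ^ 2 + p + 2) :
    r = ({(0,1), (0,3), (1,0), (1,1), (1,2), (2,1), (3,0)}, Finsupp.single (2,0) (p - 4)) ∨
    r = ({(0,1), (1,0), (1,2), (2,1), (3,0)}, Finsupp.single (2,0) (p - 3)) ∨
    r = ({(0,1), (0,3), (2,0), (2,1), (3,0)}, Finsupp.single (2,0) (p - 3)) ∨
    r = ({(0,3), (1,0), (1,1), (2,1), (3,0)}, Finsupp.single (2,0) (p - 3)) ∨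
    r = ({(1,0), (2,1), (3,0)}, Finsupp.single (2,0) (p - 2)) := by
  rcases enum_Y p hp (ofEI r) (by rw [s_ofEI]; exact hs) (by rw [W_ofEI, hW]) with
    h | h | h | h | h
  · left; rw [ofEI_eq h]; rfl
  · right; left; rw [ofEI_eq h]; rfl
  · right; right; left; rw [ofEI_eq h]; rfl
  · right; right; right; left; rw [ofEI_eq h]; rfl
  · right; right; right; right; rw [ofEI_eq h]; rfl

/-- (alpha, for the cocycle with leading term `h10 h20 h30`) no monomials in `(4, p^2+2p+3)` -/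
theorem no_monE_4 (p : ℕ) (hp : 11 ≤ p) (r : EI (ℕ × ℕ)) (hs : degM r = 4)
    (hW : levM p (wD p) r = p ^ 2 + 2 * p + 3) : False :=
  no_mon_4 p hp (ofEI r) hs (by rw [W_ofEI, hW])

/-- the monomials in `(2p, 3p^2+p+2)` -/
theorem enumE_aX (p : ℕ) (hp : 11 ≤ p) (r : EI (ℕ × ℕ)) (hs : degM r = 2 * p)
    (hW : levM p (wD p) r = 3 * p ^ 2 + p + 2) :
    r = ({(0,0), (0,1), (1,0), (1,1)}, Finsupp.single (0,0) (p - 3) + Finsupp.single (1,0) 1) ∨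
    r = ({(0,0), (0,1), (1,1), (2,0)}, Finsupp.single (0,0) (p - 2)) ∨
    r = ({(0,1), (0,2), (1,0), (2,0)}, Finsupp.single (0,0) (p - 2)) ∨
    r = ({(1,0), (2,0)}, Finsupp.single (0,0) (p - 2) + Finsupp.single (1,0) 1) := by
  rcases enum_aX p hp (ofEI r) hs (by rw [W_ofEI, hW]) with h | h | h | h
  · left; rw [ofEI_eq h]; simp [mk3]
  · right; left; rw [ofEI_eq h]; simp [mk3]
  · right; right; left; rw [ofEI_eq h]; simp [mk3]
  · right; right; right; rw [ofEI_eq h]; simp [mk3]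

end Vale.Agent.P257.H327

end
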