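import Vale.Agent.P257.H254.Gamma
import Vale.Agent.P257.H327.EI

/-! # P257 / H327 / Beta : the group of degree `6` and weight `2p^2 + 4p + 2` -/

noncomputable section

namespace Vale.Agent.P257.H327

open Vale.Agent.P257.H93 Vale.Agent.P257.H134 Vale.Agent.P257.H632 Vale.Agent.P257.H941
  Vale.Agent.P257.H254

variable {p : ℕ} [hp : Fact p.Prime]

/-! ### the May weight -/

/-- the May weight -/
def muM (v : ℕ × ℕ) : ℕ := 2 * v.1 + 1

theorem isMu_muM (hp2 : 2 ≤ p) : IsMu p muM where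
  split i j a ha := by simp only [muM]; omega
  frob i j := by
    simp only [muM]
    nlinarith

/-! ### coboundaries of words -/

theorem dP_RH2 {n : ℕ} (j : ℕ) (z : CobP p n) : dP (n + 1) (RH (2, j) n z) =
    RH (2, j) (n + 1) (dP n z) - ((-1 : ℤ) ^ n) •
      (RH (1, j + 1) (n + 1) (RH (0, j) n z) + RH (0, j + 2) (n + 1) (RH (1, j) n z)) := by
  rw [dP_RH, Finset.sum_range_succ, Finset.sum_range_one]

/-- `h10` -/
abbrev e0 : Lt := .h (0, 0)
/-- `h20` -/
abbrev g0 : Lt := .h (1, 0)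
/-- `h30` -/
abbrev k0 : Lt := .h (2, 0)

theorem d_e0 : dP 1 (cv p 1 [e0] rfl) = 0 := by
  have h := dP_RH0 (p := p) (n := 0) 0 1
  rw [dP_one, map_zero] at h
  exact h

theorem d_g0 : dP 1 (cv p 1 [g0] rfl) = -(cv p 2 [a1, e0] rfl) := by
  have h := dP_RH1 (p := p) (n := 0) 0 1
  rw [dP_one, map_zero, pow_zero, one_smul, zero_sub] at h
  exact h

theorem d_k0g0 : dP 2 (cv p 2 [k0, g0] rfl) =
    -(cv p 3 [k0, a1, e0] rfl) + (cv p 3 [a3, e0, g0] rfl + cv p 3 [a2, g0, g0] rfl) := by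
  have h := dP_RH2 (p := p) (n := 1) 0 (cv p 1 [g0] rfl)
  rw [d_g0, map_neg, pow_one, neg_smul, one_smul, sub_neg_eq_add] at h
  exact h

theorem d_c2k0g0 : dP 4 (cv p 4 [c2, k0, g0] rfl) =
    -(cv p 5 [c2, k0, a1, e0] rfl) + (cv p 5 [c2, a3, e0, g0] rfl + cv p 5 [c2, a2, g0, g0] rfl)
      + (cv p 5 [a2, c0, k0, g0] rfl) - (cv p 5 [c1, a1, k0, g0] rfl) := by
  have h := d_c2' (p := p) (n := 2) (by decide) (cv p 2 [k0, g0] rfl)
  rw [d_k0g0, map_add, map_neg, map_add] at h
  exact h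

/-- the leading word of the first cochain -/
abbrev vA : List Lt := [c0, c2, k0, g0]

theorem d_vA : dP 6 (cv p 6 vA rfl) =
    -(cv p 7 [c0, c2, k0, a1, e0] rfl) +
      (cv p 7 [c0, c2, a3, e0, g0] rfl + cv p 7 [c0, c2, a2, g0, g0] rfl)
      + (cv p 7 [c0, a2, c0, k0, g0] rfl) - (cv p 7 [c0, c1, a1, k0, g0] rfl) := by
  have h := dP_RB0 (p := p) (n := 4) 0 (cv p 4 [c2, k0, g0] rfl)
  rw [d_c2k0g0, map_sub, map_add, map_add, map_neg, map_add] at h
  exact h

theorem d_a1e0 : dP 2 (cv p 2 [a1, e0] rfl) = 0 := by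
  have h := dP_RH0 (p := p) (n := 1) 1 (cv p 1 [e0] rfl)
  rw [d_e0, map_zero] at h
  exact h

theorem d_a3a1e0 : dP 3 (cv p 3 [a3, a1, e0] rfl) = -(cv p 4 [a2, a1, a1, e0] rfl) := by
  have h := dP_RH1 (p := p) (n := 2) 1 (cv p 2 [a1, e0] rfl)
  rw [d_a1e0, map_zero, (by decide : Even 2).neg_one_pow, one_smul, zero_sub] at h
  exact h

theorem d_k0a3a1e0 : dP 4 (cv p 4 [k0, a3, a1, e0] rfl) =
    -(cv p 5 [k0, a2, a1, a1, e0] rfl) +
      (cv p 5 [a3, e0, a3, a1, e0] rfl + cv p 5 [a2, g0, a3, a1, e0] rfl) := by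
  have h := dP_RH2 (p := p) (n := 3) 0 (cv p 3 [a3, a1, e0] rfl)
  rw [d_a3a1e0, map_neg, (by decide : Odd 3).neg_one_pow, neg_smul, one_smul,
    sub_neg_eq_add] at h
  exact h

/-- the leading word of the second cochain -/
abbrev vB : List Lt := [c0, k0, a3, a1, e0]

theorem d_vB : dP 6 (cv p 6 vB rfl) =
    -(cv p 7 [c0, k0, a2, a1, a1, e0] rfl) +
      (cv p 7 [c0, a3, e0, a3, a1, e0] rfl + cv p 7 [c0, a2, g0, a3, a1, e0] rfl) := by
  have h := dP_RB0 (p := p) (n := 4) 0 (cv p 4 [k0, a3, a1, e0] rfl)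
  rw [d_k0a3a1e0, map_add, map_neg, map_add] at h
  exact h

theorem d_g0a1 : dP 2 (cv p 2 [g0, a1] rfl) = cv p 3 [a1, e0, a1] rfl := by
  have h := dP_RH1 (p := p) (n := 1) 0 (cv p 1 [a1] rfl)
  rw [d_a1, map_zero, pow_one, neg_smul, one_smul, zero_sub, neg_neg] at h
  exact h

theorem d_k0g0a1 : dP 3 (cv p 3 [k0, g0, a1] rfl) = cv p 4 [k0, a1, e0, a1] rfl -
    (cv p 4 [a3, e0, g0, a1] rfl + cv p 4 [a2, g0, g0, a1] rfl) := by
  have h := dP_RH2 (p := p) (n := 2) 0 (cv p 2 [g0, a1] rfl)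
  rw [d_g0a1, (by decide : Even 2).neg_one_pow, one_smul] at h
  exact h

/-- the first hit monomial comes from here -/
abbrev vE : List Lt := [c2, k0, g0, a1]

theorem d_vE : dP 5 (cv p 5 vE rfl) = cv p 6 [c2, k0, a1, e0, a1] rfl -
    (cv p 6 [c2, a3, e0, g0, a1] rfl + cv p 6 [c2, a2, g0, g0, a1] rfl)
      - cv p 6 [a2, c0, k0, g0, a1] rfl + cv p 6 [c1, a1, k0, g0, a1] rfl := by
  have h := d_c2 (p := p) (n := 3) (by decide) (cv p 3 [k0, g0, a1] rfl)
  rw [d_k0g0a1, map_sub, map_add] at h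
  exact h

theorem d_a3g0 : dP 2 (cv p 2 [a3, g0] rfl) =
    -(cv p 3 [a3, a1, e0] rfl) + cv p 3 [a2, a1, g0] rfl := by
  have h := dP_RH1 (p := p) (n := 1) 1 (cv p 1 [g0] rfl)
  rw [d_g0, map_neg, pow_one, neg_smul, one_smul, sub_neg_eq_add] at h
  exact h

theorem d_k0a3g0 : dP 3 (cv p 3 [k0, a3, g0] rfl) =
    -(cv p 4 [k0, a3, a1, e0] rfl) + cv p 4 [k0, a2, a1, g0] rfl -
    (cv p 4 [a3, e0, a3, g0] rfl + cv p 4 [a2, g0, a3, g0] rfl) := by
  have h := dP_RH2 (p := p) (n := 2) 0 (cv p 2 [a3, g0] rfl)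
  rw [d_a3g0, map_add, map_neg, (by decide : Even 2).neg_one_pow, one_smul] at h
  exact h

/-- the second hit combination comes from here -/
abbrev vF : List Lt := [c0, k0, a3, g0]

theorem d_vF : dP 5 (cv p 5 vF rfl) =
    -(cv p 6 [c0, k0, a3, a1, e0] rfl) + cv p 6 [c0, k0, a2, a1, g0] rfl -
    (cv p 6 [c0, a3, e0, a3, g0] rfl + cv p 6 [c0, a2, g0, a3, g0] rfl) := by
  have h := dP_RB0 (p := p) (n := 3) 0 (cv p 3 [k0, a3, g0] rfl)
  rw [d_k0a3g0, map_sub, map_add, map_neg, map_add] at h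
  exact h

/-! ### levels -/

section levels
omit hp

theorem muM_00 : muM (0, 0) = 1 := rfl
theorem muM_01 : muM (0, 1) = 1 := rfl
theorem muM_02 : muM (0, 2) = 1 := rfl
theorem muM_10 : muM (1, 0) = 3 := rfl
theorem muM_11 : muM (1, 1) = 3 := rfl
theorem muM_20 : muM (2, 0) = 5 := rfl

theorem wD_00 : wD p (0, 0) = 1 := by simp [wD]
theorem wD_01 : wD p (0, 1) = p := by simp [wD]
theorem wD_02 : wD p (0, 2) = p ^ 2 := by simp [wD]
theorem wD_10 : wD p (1, 0) = 1 + p := by simp [wD, Finset.sum_range_succ]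
theorem wD_11 : wD p (1, 1) = p + p ^ 2 := by simp [wD, Finset.sum_range_succ]
theorem wD_20 : wD p (2, 0) = 1 + p + p ^ 2 := by simp [wD, Finset.sum_range_succ]

end levels

/-- a word of the first hit monomial -/
abbrev vC : List Lt := [c2, a3, e0, g0, a1]
/-- a word of the second hit monomial -/
abbrev vD : List Lt := [c0, k0, a2, a1, g0]

theorem enumB (hp11 : 11 ≤ p) (r : MonSW p 6 (2 * p ^ 2 + 4 * p + 2)) :
    r.1 = (hs vA, bs vA) ∨ r.1 = (hs vB, bs vB) ∨ r.1 = (hs vC, bs vC) ∨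
      r.1 = (hs vD, bs vD) := by
  obtain ⟨r, h1, h2⟩ := r
  rcases enumE_beta p hp11 r h1 h2 with h | h | h | h
  · right; right; left
    change r = _
    rw [h]
    exact Prod.ext (by decide) (by simp only [bs]; abel)
  · right; left
    change r = _
    rw [h]
    exact Prod.ext (by decide) (by simp only [bs]; abel)
  · right; right; right
    change r = _
    rw [h]
    exact Prod.ext (by decide) (by simp only [bs]; abel)
  · left
    change r = _
    rw [h]
    exact Prod.ext (by decide) (by simp only [bs]; abel)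

theorem dvA_mem (hp3 : 3 ≤ p) : dP 6 (cv p 6 vA rfl) ∈ Fil muM 7 (4 * p + 7 + 1) := by
  have hμ := isMu_muM (p := p) (by omega)
  rw [d_vA]
  refine Submodule.sub_mem _ (Submodule.add_mem _ (Submodule.add_mem _ (Submodule.neg_mem _ ?_)
    (Submodule.add_mem _ ?_ ?_)) ?_) ?_ <;>
  · apply cv_mem_le hμ
    simp only [lw, muM_00, muM_01, muM_02, muM_10, muM_11, muM_20]
    omega

theorem dvB_mem (hp3 : 3 ≤ p) : dP 6 (cv p 6 vB rfl) ∈ Fil muM 7 (p + 9 + 1) := by
  have hμ := isMu_muM (p := p) (by omega)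
  rw [d_vB]
  refine Submodule.add_mem _ (Submodule.neg_mem _ ?_) (Submodule.add_mem _ ?_ ?_) <;>
  · apply cv_mem_le hμ
    simp only [lw, muM_00, muM_01, muM_02, muM_10, muM_11, muM_20]
    omega

theorem dvE_mem (hp3 : 3 ≤ p) : dP 5 (cv p 5 vE rfl) ∈ Fil muM 6 (3 * p + 8 + 1) := by
  have hμ := isMu_muM (p := p) (by omega)
  rw [d_vE]
  refine Submodule.add_mem _ (Submodule.sub_mem _ (Submodule.sub_mem _ ?_
    (Submodule.add_mem _ ?_ ?_)) ?_) ?_ <;>
  · apply cv_mem_le hμ
    simp only [lw, muM_00, muM_01, muM_02, muM_10, muM_11, muM_20]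
    omega

theorem dvF_mem (hp3 : 3 ≤ p) : dP 5 (cv p 5 vF rfl) ∈ Fil muM 6 (p + 10 + 1) := by
  have hμ := isMu_muM (p := p) (by omega)
  rw [d_vF]
  refine Submodule.sub_mem _ (Submodule.add_mem _ (Submodule.neg_mem _ ?_) ?_)
    (Submodule.add_mem _ ?_ ?_) <;>
  · apply cv_mem_le hμ
    simp only [lw, muM_00, muM_01, muM_02, muM_10, muM_11, muM_20]
    omega

theorem lev_vA : levM p muM (hs vA, bs vA) = 4 * p + 8 := by
  rw [levM_word _ (by decide)]
  simp only [lw, muM_00, muM_01, muM_02, muM_10, muM_11, muM_20]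
  omega
theorem lev_vB : levM p muM (hs vB, bs vB) = p + 10 := by
  rw [levM_word _ (by decide)]
  simp only [lw, muM_00, muM_01, muM_02, muM_10, muM_11, muM_20]
  omega
theorem lev_vC : levM p muM (hs vC, bs vC) = 3 * p + 8 := by
  rw [levM_word _ (by decide)]
  simp only [lw, muM_00, muM_01, muM_02, muM_10, muM_11, muM_20]
  omega
theorem lev_vD : levM p muM (hs vD, bs vD) = p + 10 := by
  rw [levM_word _ (by decide)]
  simp only [lw, muM_00, muM_01, muM_02, muM_10, muM_11, muM_20]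
  omega

/-- leading word of the first coboundary -/
abbrev vA' : List Lt := [c0, c2, k0, a1, e0]
/-- leading word of the second coboundary -/
abbrev vB' : List Lt := [c0, a2, g0, a3, a1, e0]

theorem lev_vA' : levM p muM (hs vA', bs vA') = 4 * p + 7 := by
  rw [levM_word _ (by decide)]
  simp only [lw, muM_00, muM_01, muM_02, muM_10, muM_11, muM_20]
  omega
theorem lev_vB' : levM p muM (hs vB', bs vB') = p + 9 := by
  rw [levM_word _ (by decide)]
  simp only [lw, muM_00, muM_01, muM_02, muM_10, muM_11, muM_20]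
  omega

/-- a word does not contribute to another monomial -/
theorem Th_cv_ne {μ : ℕ × ℕ → ℕ} (hμ : IsMu p μ) (hp2 : 2 < p) {n : ℕ} (w : List Lt)
    (h : dg w = n) (r : EI (ℕ × ℕ)) (hr : lw p μ w ≤ levM p μ r) (h0 : r.1 ≠ hs w) :
    Th n r (cv p n w h) = 0 := by
  rw [Th_cv hμ hp2 w h r hr, if_neg fun e => h0 (congrArg Prod.fst e)]

theorem Th_dvA (hp3 : 3 ≤ p) : Th 7 (hs vA', bs vA') (dP 6 (cv p 6 vA rfl)) =
    -(sn vA' : ZMod p) := by
  have hμ := isMu_muM (p := p) (by omega)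
  rw [d_vA, Th_sub, Th_add, Th_add, Th_neg, Th_add,
    Th_cv_self (n := 7) hμ hp3 _ vA' rfl (by decide) rfl rfl rfl,
    Th_cv_ne (n := 7) hμ hp3 [c0, c2, a3, e0, g0] rfl _ (by
      rw [lev_vA']
      simp only [lw, muM_00, muM_01, muM_02, muM_10, muM_11, muM_20]
      omega) (by decide),
    Th_cv_ne (n := 7) hμ hp3 [c0, c2, a2, g0, g0] rfl _ (by
      rw [lev_vA']
      simp only [lw, muM_00, muM_01, muM_02, muM_10, muM_11, muM_20]
      omega) (by decide),
    Th_cv_ne (n := 7) hμ hp3 [c0, a2, c0, k0, g0] rfl _ (by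
      rw [lev_vA']
      simp only [lw, muM_00, muM_01, muM_02, muM_10, muM_11, muM_20]
      omega) (by decide),
    Th_cv_ne (n := 7) hμ hp3 [c0, c1, a1, k0, g0] rfl _ (by
      rw [lev_vA']
      simp only [lw, muM_00, muM_01, muM_02, muM_10, muM_11, muM_20]
      omega) (by decide)]
  ring

theorem Th_dvB (hp3 : 3 ≤ p) : Th 7 (hs vB', bs vB') (dP 6 (cv p 6 vB rfl)) =
    (sn vB' : ZMod p) := by
  have hμ := isMu_muM (p := p) (by omega)
  rw [d_vB, Th_add, Th_neg, Th_add,
    Th_cv_self (n := 7) hμ hp3 _ vB' rfl (by decide) rfl rfl rfl,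
    Th_cv_ne (n := 7) hμ hp3 [c0, k0, a2, a1, a1, e0] rfl _ (by
      rw [lev_vB']
      simp only [lw, muM_00, muM_01, muM_02, muM_10, muM_11, muM_20]
      omega) (by decide),
    Th_cv_ne (n := 7) hμ hp3 [c0, a3, e0, a3, a1, e0] rfl _ (by
      rw [lev_vB']
      simp only [lw, muM_00, muM_01, muM_02, muM_10, muM_11, muM_20]
      omega) (by decide)]
  ring

theorem Th_dvE (hp3 : 3 ≤ p) : Th 6 (hs vC, bs vC) (dP 5 (cv p 5 vE rfl)) =
    -(sn vC : ZMod p) := by
  have hμ := isMu_muM (p := p) (by omega)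
  rw [d_vE, Th_add, Th_sub, Th_sub, Th_add,
    Th_cv_self (n := 6) hμ hp3 _ vC rfl (by decide) rfl rfl rfl,
    Th_cv_ne (n := 6) hμ hp3 [c2, k0, a1, e0, a1] rfl _ (by
      rw [lev_vC]
      simp only [lw, muM_00, muM_01, muM_02, muM_10, muM_11, muM_20]
      omega) (by decide),
    Th_cv_ne (n := 6) hμ hp3 [c2, a2, g0, g0, a1] rfl _ (by
      rw [lev_vC]
      simp only [lw, muM_00, muM_01, muM_02, muM_10, muM_11, muM_20]
      omega) (by decide),
    Th_cv_ne (n := 6) hμ hp3 [a2, c0, k0, g0, a1] rfl _ (by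
      rw [lev_vC]
      simp only [lw, muM_00, muM_01, muM_02, muM_10, muM_11, muM_20]
      omega) (by decide),
    Th_cv_ne (n := 6) hμ hp3 [c1, a1, k0, g0, a1] rfl _ (by
      rw [lev_vC]
      simp only [lw, muM_00, muM_01, muM_02, muM_10, muM_11, muM_20]
      omega) (by decide)]
  ring

theorem Th_dvF_B (hp3 : 3 ≤ p) : Th 6 (hs vB, bs vB) (dP 5 (cv p 5 vF rfl)) =
    -(sn vB : ZMod p) := by
  have hμ := isMu_muM (p := p) (by omega)
  rw [d_vF, Th_sub, Th_add, Th_neg, Th_add,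
    Th_cv_self (n := 6) hμ hp3 _ vB rfl (by decide) rfl rfl rfl,
    Th_cv_ne (n := 6) hμ hp3 [c0, k0, a2, a1, g0] rfl _ (by
      rw [lev_vB]
      simp only [lw, muM_00, muM_01, muM_02, muM_10, muM_11, muM_20]
      omega) (by decide),
    Th_cv_ne (n := 6) hμ hp3 [c0, a3, e0, a3, g0] rfl _ (by
      rw [lev_vB]
      simp only [lw, muM_00, muM_01, muM_02, muM_10, muM_11, muM_20]
      omega) (by decide),
    Th_cv_ne (n := 6) hμ hp3 [c0, a2, g0, a3, g0] rfl _ (by
      rw [lev_vB]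
      simp only [lw, muM_00, muM_01, muM_02, muM_10, muM_11, muM_20]
      omega) (by decide)]
  ring

theorem Th_dvF_D (hp3 : 3 ≤ p) : Th 6 (hs vD, bs vD) (dP 5 (cv p 5 vF rfl)) =
    (sn vD : ZMod p) := by
  have hμ := isMu_muM (p := p) (by omega)
  rw [d_vF, Th_sub, Th_add, Th_neg, Th_add,
    Th_cv_self (n := 6) hμ hp3 _ vD rfl (by decide) rfl rfl rfl,
    Th_cv_ne (n := 6) hμ hp3 [c0, k0, a3, a1, e0] rfl _ (by
      rw [lev_vD]
      simp only [lw, muM_00, muM_01, muM_02, muM_10, muM_11, muM_20]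
      omega) (by decide),
    Th_cv_ne (n := 6) hμ hp3 [c0, a3, e0, a3, g0] rfl _ (by
      rw [lev_vD]
      simp only [lw, muM_00, muM_01, muM_02, muM_10, muM_11, muM_20]
      omega) (by decide),
    Th_cv_ne (n := 6) hμ hp3 [c0, a2, g0, a3, g0] rfl _ (by
      rw [lev_vD]
      simp only [lw, muM_00, muM_01, muM_02, muM_10, muM_11, muM_20]
      omega) (by decide)]
  ring

theorem sn_vA : sn vA = -1 := by decide
theorem sn_vB : sn vB = 1 := by decide

/-! ### the theorem -/

/-- `H^6` of the cobar complex of `P` vanishes in weight `2p^2 + 4p + 2`. -/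
theorem beta_CobP (hp11 : 11 ≤ p) {z : CobP p 6} (hz : z ∈ WtP p 6 (2 * p ^ 2 + 4 * p + 2))
    (hd : dP 6 z = 0) : ∃ x ∈ WtP p 5 (2 * p ^ 2 + 4 * p + 2), z = dP 5 x := by
  have hp3 : 3 ≤ p := by omega
  have hμ := isMu_muM (p := p) (by omega)
  have P := page hμ hp3 5 (2 * p ^ 2 + 4 * p + 2) (fun n => Fil_zero_eq n)
    (fun n w => exists_mem_Fil n w)
  let U : Bool → CobP p 6 := fun b => if b then cv p 6 vA rfl else cv p 6 vB rfl
  let u : Bool → ℕ := fun b => if b then 4 * p + 8 else p + 10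
  let l : Bool → ℕ := fun b => if b then 4 * p + 7 else p + 9
  have UA : U true = cv p 6 vA rfl := rfl
  have UB : U false = cv p 6 vB rfl := rfl
  have TA : Th 6 (hs vA, bs vA) (cv p 6 vA rfl) = -1 := by
    rw [Th_cv_self (n := 6) hμ hp3 vA vA rfl (by decide) rfl rfl rfl, sn_vA]
    simp
  have TB : Th 6 (hs vB, bs vB) (cv p 6 vB rfl) = 1 := by
    rw [Th_cv_self (n := 6) hμ hp3 vB vB rfl (by decide) rfl rfl rfl, sn_vB, Int.cast_one]
  have TDB : Th 6 (hs vD, bs vD) (cv p 6 vB rfl) = 0 :=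
    Th_cv_ne (n := 6) hμ hp3 vB rfl _ (by
      rw [lev_vD]
      simp only [lw, muM_00, muM_01, muM_02, muM_10, muM_11, muM_20]
      omega) (by decide)
  have hE := dvE_mem (p := p) hp3
  have hF := dvF_mem (p := p) hp3
  have hEW : cv p 5 vE rfl ∈ WtP p 5 (2 * p ^ 2 + 4 * p + 2) := by
    apply cv_mem_WtP
    simp only [lw, wD_00, wD_01, wD_02, wD_10, wD_11, wD_20]
    ring
  have hFW : cv p 5 vF rfl ∈ WtP p 5 (2 * p ^ 2 + 4 * p + 2) := by
    apply cv_mem_WtP
    simp only [lw, wD_00, wD_01, wD_02, wD_10, wD_11, wD_20]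
    ring
  have nC := sn_cast_ne (p := p) vC (by decide)
  have nD := sn_cast_ne (p := p) vD (by decide)
  refine P.echelon (dL_dL 5) U u l ?_ ?_ ?_ ?_ ?_ ?_ z hz hd
  · -- weights
    rintro (_ | _)
    · refine cv_mem_WtP (n := 6) vB rfl ?_
      simp only [lw, wD_00, wD_01, wD_02, wD_10, wD_11, wD_20]
      ring
    · refine cv_mem_WtP (n := 6) vA rfl ?_
      simp only [lw, wD_00, wD_01, wD_02, wD_10, wD_11, wD_20]
      ring
  · -- levels
    rintro (_ | _)
    · refine cv_mem_le (n := 6) hμ vB rfl ?_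
      change _ < p + 10 + 1
      simp only [lw, muM_00, muM_01, muM_02, muM_10, muM_11, muM_20]
      omega
    · refine cv_mem_le (n := 6) hμ vA rfl ?_
      change _ < 4 * p + 8 + 1
      simp only [lw, muM_00, muM_01, muM_02, muM_10, muM_11, muM_20]
      omega
  · rintro (_ | _)
    · exact dvB_mem hp3
    · exact dvA_mem hp3
  · rintro (_ | _)
    · change p + 9 < p + 10
      omega
    · change 4 * p + 7 < 4 * p + 8
      omega
  · -- span
    intro n w _ _ _
    by_cases h1 : n = 4 * p + 8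
    · refine ⟨fun b => if b then -Th 6 (hs vA, bs vA) w else 0, ?_, 0, Submodule.zero_mem _, ?_, ?_⟩
      · rintro (_ | _) h
        · exact absurd rfl h
        · exact h1.symm
      · rw [map_zero]
        exact Submodule.zero_mem _
      · rintro r hr
        rcases enumB hp11 r with h | h | h | h
        · rw [map_zero, map_zero, add_zero, Fintype.sum_bool, ThL_apply, ThL_apply, ThL_apply, h,
            UA, TA]
          simp
        · rw [h, lev_vB] at hr
          omega
        · rw [h, lev_vC] at hr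
          omega
        · rw [h, lev_vD] at hr
          omega
    by_cases h2 : n = 3 * p + 8
    · refine ⟨0, fun b h => absurd rfl h,
        (Th 6 (hs vC, bs vC) w * (-(sn vC : ZMod p))⁻¹) • cv p 5 vE rfl,
        Submodule.smul_mem _ _ hEW, ?_, ?_⟩
      · rw [map_smul, dL_apply, h2]
        exact Submodule.smul_mem _ _ hE
      · rintro r hr
        rcases enumB hp11 r with h | h | h | h
        · rw [h, lev_vA] at hr
          omega
        · rw [h, lev_vB] at hr
          omega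
        · rw [map_smul, map_smul, dL_apply, ThL_apply, ThL_apply, h, Th_dvE hp3, smul_eq_mul,
            inv_mul_cancel_right₀ (neg_ne_zero.2 nC)]
          simp
        · rw [h, lev_vD] at hr
          omega
    by_cases h3 : n = p + 10
    · refine ⟨fun b => if b then 0 else Th 6 (hs vB, bs vB) w +
          Th 6 (hs vD, bs vD) w * (sn vD : ZMod p)⁻¹ * (sn vB : ZMod p), ?_,
        (Th 6 (hs vD, bs vD) w * (sn vD : ZMod p)⁻¹) • cv p 5 vF rfl,
        Submodule.smul_mem _ _ hFW, ?_, ?_⟩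
      · rintro (_ | _) h
        · exact h3.symm
        · exact absurd rfl h
      · rw [map_smul, dL_apply, h3]
        exact Submodule.smul_mem _ _ hF
      · rintro r hr
        rcases enumB hp11 r with h | h | h | h
        · rw [h, lev_vA] at hr
          omega
        · rw [map_smul, map_smul, dL_apply, ThL_apply, ThL_apply, Fintype.sum_bool, ThL_apply,
            ThL_apply, h, UB, TB, Th_dvF_B hp3, smul_eq_mul]
          simp only [Bool.false_eq_true, if_true, if_false, zero_mul]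
          ring
        · rw [h, lev_vC] at hr
          omega
        · rw [map_smul, map_smul, dL_apply, ThL_apply, ThL_apply, Fintype.sum_bool, ThL_apply,
            ThL_apply, h, UB, TDB, Th_dvF_D hp3, smul_eq_mul, inv_mul_cancel_right₀ nD]
          simp
    · refine ⟨0, fun b h => absurd rfl h, 0, Submodule.zero_mem _, ?_, ?_⟩
      · rw [map_zero]
        exact Submodule.zero_mem _
      · rintro r hr
        rcases enumB hp11 r with h | h | h | h
        · rw [h, lev_vA] at hr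
          omega
        · rw [h, lev_vB] at hr
          omega
        · rw [h, lev_vC] at hr
          omega
        · rw [h, lev_vD] at hr
          omega
  · -- injectivity
    intro L c hc h
    funext b
    by_contra hb
    have hL := hc b hb
    rcases b with _ | _
    · have hL' : p + 9 = L := hL
      have hc1 : c true = 0 := by
        by_contra h1
        have : 4 * p + 7 = L := hc true h1
        omega
      have h2 := h ⟨(hs vB', bs vB'), by rw [degM_word _ (by decide)]; rfl, by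
        rw [levM_word _ (by decide)]
        simp only [lw, wD_00, wD_01, wD_02, wD_10, wD_11, wD_20]
        ring⟩ (by simp only; rw [lev_vB', hL'])
      rw [Fintype.sum_bool, hc1, zero_mul, zero_add, ThL_apply, dL_apply, UB, Th_dvB hp3] at h2
      rcases mul_eq_zero.1 h2 with h3 | h3
      · exact hb h3
      · exact sn_cast_ne _ (by decide) h3
    · have hL' : 4 * p + 7 = L := hL
      have hc1 : c false = 0 := by
        by_contra h1
        have : p + 9 = L := hc false h1
        omega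
      have h2 := h ⟨(hs vA', bs vA'), by rw [degM_word _ (by decide)]; rfl, by
        rw [levM_word _ (by decide)]
        simp only [lw, wD_00, wD_01, wD_02, wD_10, wD_11, wD_20]
        ring⟩ (by simp only; rw [lev_vA', hL'])
      rw [Fintype.sum_bool, hc1, zero_mul, add_zero, ThL_apply, dL_apply, UA, Th_dvA hp3,
        mul_neg, neg_eq_zero] at h2
      rcases mul_eq_zero.1 h2 with h3 | h3
      · exact hb h3
      · exact sn_cast_ne _ (by decide) h3

end Vale.Agent.P257.H327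

end
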