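import Vale.Agent.P257.H327.Beta
import Vale.Agent.P257.H545.VanP

/-! # P257 / H327 / BetaP : the field `beta` of `FactsP` -/

namespace Vale.Agent.P257.H327

open Vale.Agent.P257.H93 Vale.Agent.P257.H254 Vale.Agent.P257.H545

variable {p : ℕ} [hp : Fact p.Prime]

/-- **The group `β` vanishes.** -/
theorem vanP_beta (h11 : 11 ≤ p) : VanP p 6 (((p : ℤ) - 1) * (2 * p ^ 2 + 4 * p + 2)) := by
  have hw : ((p : ℤ) - 1) * (2 * p ^ 2 + 4 * p + 2) =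
      ((p - 1 : ℕ) : ℤ) * ((2 * p ^ 2 + 4 * p + 2 : ℕ) : ℤ) := by
    rw [Nat.cast_sub (by omega)]
    push_cast
    ring
  rw [hw]
  intro c hc hd
  obtain ⟨y, hy, h⟩ := beta_CobP h11 (mem_WtP.2 hc) hd
  exact ⟨y, mem_WtP.1 hy, h.symm⟩

end Vale.Agent.P257.H327
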