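import Vale.Agent.P257.H327.Enum10

open Finset

namespace Vale.Agent.P257.H327

namespace Mon

/-- the monomial with exterior factors `h` and polynomial part `b30^z` -/
noncomputable def mkz (h : Finset (ℕ × ℕ)) (z : ℕ) : Mon where
  h := h
  b := Finsupp.single (2, 0) z

theorem eq_mkz {p : ℕ} (hp : 2 ≤ p) {x : Mon} (hW : x.W p < p ^ 5) {h : Finset (ℕ × ℕ)}
    (hh : h ⊆ idx 5) {z : ℕ} (he : ∀ a ∈ idx 5, x.e a = ind h a)
    (hz : x.m (2, 0) = z) (hm : ∀ a ∈ idx 4, a ≠ (2, 0) → x.m a = 0) : x = mkz h z := by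
  apply ext_idx (h_sub hp hW) (b_sub hp hW) hh
  · intro a ha
    have : a = (2, 0) := by
      by_contra hc
      apply Finsupp.mem_support_iff.1 ha
      simp only [mkz, Finsupp.single_apply]
      rw [if_neg (fun h => hc h.symm)]
    rw [this]
    decide
  · exact he
  · intro a ha
    by_cases h : a = (2, 0)
    · subst h
      rw [hz]
      simp [mkz, m]
    · rw [hm a ha h]
      simp [mkz, m, Finsupp.single_apply, Ne.symm h]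

end Mon

open Mon

theorem forall_idx4' {P : ℕ × ℕ → Prop} (h00 : P (0, 0)) (h01 : P (0, 1)) (h02 : P (0, 2))
    (h03 : P (0, 3)) (h10 : P (1, 0)) (h11 : P (1, 1)) (h12 : P (1, 2)) (h20 : P (2, 0))
    (h21 : P (2, 1)) (h30 : P (3, 0)) : ∀ a ∈ idx 4, P a := by
  intro a ha
  have : idx 4 = {(0, 0), (0, 1), (0, 2), (0, 3), (1, 0), (1, 1), (1, 2), (2, 0), (2, 1),
    (3, 0)} := by decide
  rw [this] at ha
  simp only [mem_insert, mem_singleton] at ha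
  rcases ha with rfl | rfl | rfl | rfl | rfl | rfl | rfl | rfl | rfl | rfl <;> assumption

theorem forall_idx5' {P : ℕ × ℕ → Prop} (h00 : P (0, 0)) (h01 : P (0, 1)) (h02 : P (0, 2))
    (h03 : P (0, 3)) (h04 : P (0, 4)) (h10 : P (1, 0)) (h11 : P (1, 1)) (h12 : P (1, 2))
    (h13 : P (1, 3)) (h20 : P (2, 0)) (h21 : P (2, 1)) (h22 : P (2, 2)) (h30 : P (3, 0))
    (h31 : P (3, 1)) (h40 : P (4, 0)) : ∀ a ∈ idx 5, P a := by
  intro a ha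
  rw [idx5_eq] at ha
  simp only [mem_insert, mem_singleton] at ha
  rcases ha with rfl | rfl | rfl | rfl | rfl | rfl | rfl | rfl | rfl | rfl | rfl | rfl | rfl |
    rfl | rfl <;> assumption

/-- The monomials in the tridegree `(2p-1, p^4+p^3+p^2+p+2)`. -/
theorem enum_Y (p : ℕ) (hp : 11 ≤ p) (x : Mon) (hs : x.s + 1 = 2 * p)
    (hW : x.W p = p ^ 4 + p ^ 3 + p ^ 2 + p + 2) :
    x = mkz {(0,1), (0,3), (1,0), (1,1), (1,2), (2,1), (3,0)} (p - 4) ∨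
    x = mkz {(0,1), (1,0), (1,2), (2,1), (3,0)} (p - 3) ∨
    x = mkz {(0,1), (0,3), (2,0), (2,1), (3,0)} (p - 3) ∨
    x = mkz {(0,3), (1,0), (1,1), (2,1), (3,0)} (p - 3) ∨
    x = mkz {(1,0), (2,1), (3,0)} (p - 2) := by
  have hp2 : 2 ≤ p := by omega
  have hW5 : x.W p < p ^ 5 := by
    have h1 : 11 * p ^ 4 ≤ p ^ 5 := by
      rw [pow_succ p 4, mul_comm]; exact Nat.mul_le_mul_left _ hp
    have h2 : p ^ 3 ≤ p ^ 4 := Nat.pow_le_pow_right (by omega) (by omega)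
    have h3 : p ^ 2 ≤ p ^ 4 := Nat.pow_le_pow_right (by omega) (by omega)
    have h4 : p ≤ p ^ 4 := Nat.le_self_pow (by omega) _
    rw [hW]
    omega
  have es := s_eq5 hp2 hW5
  have eW := W_eq5 hp2 hW5
  have hs' : (x.s : ℤ) = 2 * p - 1 := by
    have : (x.s : ℤ) + 1 = 2 * p := by exact_mod_cast hs
    linarith
  rw [hW] at eW
  push_cast at eW
  rw [hs'] at es
  obtain ⟨⟨t1, t2, t3, t4, t5, t6, t7, t8, t9⟩, ⟨u1, u2, u3, u4, u5, u6, u7, u8⟩, h⟩ :=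
    Y_enum_int p (by exact_mod_cast hp) _ _ _ _ _ _ _ _ _ _ _ _ _ _ _ _ _ _ _ _ _ _ _ _ _
    (x.e_nonneg (0, 0)) (x.e_le_one (0, 0)) (x.e_nonneg (0, 1)) (x.e_le_one (0, 1))
    (x.e_nonneg (0, 2)) (x.e_le_one (0, 2)) (x.e_nonneg (0, 3)) (x.e_le_one (0, 3))
    (x.e_nonneg (0, 4)) (x.e_le_one (0, 4)) (x.e_nonneg (1, 0)) (x.e_le_one (1, 0))
    (x.e_nonneg (1, 1)) (x.e_le_one (1, 1)) (x.e_nonneg (1, 2)) (x.e_le_one (1, 2))
    (x.e_nonneg (1, 3)) (x.e_le_one (1, 3)) (x.e_nonneg (2, 0)) (x.e_le_one (2, 0))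
    (x.e_nonneg (2, 1)) (x.e_le_one (2, 1)) (x.e_nonneg (2, 2)) (x.e_le_one (2, 2))
    (x.e_nonneg (3, 0)) (x.e_le_one (3, 0)) (x.e_nonneg (3, 1)) (x.e_le_one (3, 1))
    (x.e_nonneg (4, 0)) (x.e_le_one (4, 0)) (x.m_nonneg (0, 0)) (x.m_nonneg (0, 1))
    (x.m_nonneg (0, 2)) (x.m_nonneg (0, 3)) (x.m_nonneg (1, 0)) (x.m_nonneg (1, 1))
    (x.m_nonneg (1, 2)) (x.m_nonneg (2, 0)) (x.m_nonneg (2, 1)) (x.m_nonneg (3, 0)) eW es.symm
  have c4 : ((p - 4 : ℕ) : ℤ) = p - 4 := by push_cast [show 4 ≤ p by omega]; ring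
  have c3 : ((p - 3 : ℕ) : ℤ) = p - 3 := by push_cast [show 3 ≤ p by omega]; ring
  have c2 : ((p - 2 : ℕ) : ℤ) = p - 2 := by push_cast [show 2 ≤ p by omega]; ring
  have hm : ∀ a ∈ idx 4, a ≠ (2, 0) → x.m a = 0 := by
    apply forall_idx4' (P := fun a => a ≠ (2, 0) → x.m a = 0)
    all_goals intro h
    all_goals first | assumption | exact absurd rfl h
  clear es eW hs'
  rcases h with ⟨g1, g2, g3, g4, g5, g6, g7, g8⟩ | ⟨g1, g2, g3, g4, g5, g6, g7, g8⟩ |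
    ⟨g1, g2, g3, g4, g5, g6, g7, g8⟩ | ⟨g1, g2, g3, g4, g5, g6, g7, g8⟩ |
    ⟨g1, g2, g3, g4, g5, g6, g7, g8⟩
  · exact Or.inl (eq_mkz hp2 hW5 (by decide)
      (forall_idx5' u8 g1 g2 g3 t1 g4 g5 g6 t2 g7 u7 t3 u6 t4 t5) (g8.trans c4.symm) hm)
  · exact Or.inr (Or.inl (eq_mkz hp2 hW5 (by decide)
      (forall_idx5' u8 g1 g2 g3 t1 g4 g5 g6 t2 g7 u7 t3 u6 t4 t5) (g8.trans c3.symm) hm))
  · exact Or.inr (Or.inr (Or.inl (eq_mkz hp2 hW5 (by decide)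
      (forall_idx5' u8 g1 g2 g3 t1 g4 g5 g6 t2 g7 u7 t3 u6 t4 t5) (g8.trans c3.symm) hm)))
  · exact Or.inr (Or.inr (Or.inr (Or.inl (eq_mkz hp2 hW5 (by decide)
      (forall_idx5' u8 g1 g2 g3 t1 g4 g5 g6 t2 g7 u7 t3 u6 t4 t5) (g8.trans c3.symm) hm))))
  · exact Or.inr (Or.inr (Or.inr (Or.inr (eq_mkz hp2 hW5 (by decide)
      (forall_idx5' u8 g1 g2 g3 t1 g4 g5 g6 t2 g7 u7 t3 u6 t4 t5) (g8.trans c2.symm) hm))))

end Vale.Agent.P257.H327
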