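import Mathlib.Tactic

/-!
# P257 / H327: digit arithmetic for the enumeration of `E(h_ij) ⊗ P(b_ij)`
-/

namespace Vale.Agent.P257.H327

/-- extraction of the lowest digit -/
theorem digit {p a b : ℤ} (h : a + p * b = 0) (h1 : -p < a) (h2 : a < p) : a = 0 ∧ b = 0 := by
  have hp : 0 < p := by linarith
  have hb : b = 0 := by
    rcases lt_trichotomy b 0 with hb | hb | hb
    · nlinarith
    · exact hb
    · nlinarith
  subst hb
  exact ⟨by linarith, rfl⟩

theorem main_k_le (p k : ℤ) (hp : 11 ≤ p) (nh nb : ℤ) (h2 : nh ≤ 10)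
    (hs : nh + 2 * nb + 2 * k = 2 * k * p + 1) (hb : p * nb ≤ p ^ 3 + p ^ 2 + p + 1 + k) :
    k ≤ p + 2 := by
  by_contra hc
  push Not at hc
  have h3 : p * (2 * nb) = p * (2 * k * p + 1 - 2 * k - nh) := by
    congr 1; linarith
  have h4 : p * nh ≤ p * 10 := by nlinarith
  nlinarith [mul_pos (show (0:ℤ) < p by linarith) (show (0:ℤ) < p by linarith),
    mul_nonneg (show (0:ℤ) ≤ k - (p + 3) by linarith) (show (0:ℤ) ≤ p * p - p - 1 by nlinarith)]

end Vale.Agent.P257.H327
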