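import Vale.Agent.P257.H327.Mon
import Vale.Agent.P257.H327.EnumCore

open Finset

namespace Vale.Agent.P257.H327

open Mon

/-- `k ≤ 3` in `low_int` -/
theorem low_k (p k s W n1 n2 n3 t : ℤ) (hp : 11 ≤ p) (hn1 : n1 ≤ 2)
    (hn2 : n2 ≤ 2) (hn3 : n3 ≤ 2) (ht : t ≤ 8)
    (hl : p * s ≤ 2 * W + (p - 2))
    (hs : s + t + 2 * k = 2 * k * p + 1) (hW : W = k + n1 + n2 * (1 + p) + n3 * (1 + p + p ^ 2)) :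
    k ≤ 3 := by
  subst hW
  by_contra hc
  push Not at hc
  have h1 : p * s = p * (2 * k * p + 1 - 2 * k - t) := by
    congr 1; linarith
  have h2 : 4 * (p * p - p - 1) ≤ k * (p * p - p - 1) := by
    apply mul_le_mul_of_nonneg_right
    · linarith
    · nlinarith
  have h3 : n2 * (1 + p) ≤ 2 * (1 + p) := by
    apply mul_le_mul_of_nonneg_right <;> linarith
  have h4 : n3 * (1 + p + p ^ 2) ≤ 2 * (1 + p + p ^ 2) := by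
    apply mul_le_mul_of_nonneg_right
    · linarith
    · positivity
  have h5 : p * t ≤ p * 8 := by
    apply mul_le_mul_of_nonneg_left <;> linarith
  nlinarith

theorem low_end1 (p r n1 n2 n3 t : ℤ) (hp : 11 ≤ p) (hr0 : 0 ≤ r) (hr2 : r ≤ 2)
    (hn1 : 0 ≤ n1) (hn2 : 0 ≤ n2) (hn3 : 0 ≤ n3) (ht : -1 ≤ t) (ht' : t ≤ 8)
    (a0 a1 a2 c0 c1 d0 x0 x1 y0 : ℤ)
    (ha0 : 0 ≤ a0) (ha1 : 0 ≤ a1) (ha2 : 0 ≤ a2) (hc0 : 0 ≤ c0) (hc1 : 0 ≤ c1)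
    (hd0 : 0 ≤ d0)
    (ha0' : a0 ≤ 1) (ha1' : a1 ≤ 1) (ha2' : a2 ≤ 1) (hc0' : c0 ≤ 1)
    (hc1' : c1 ≤ 1) (hd0' : d0 ≤ 1)
    (hx0 : 0 ≤ x0) (hx1 : 0 ≤ x1) (hy0 : 0 ≤ y0)
    (h1 : a0 + c0 + d0 = 1 + n1 + n2 + n3)
    (h2 : a2 + c1 + d0 + x1 + y0 = n3 - r)
    (h3 : a1 + c0 + c1 + d0 + x0 + y0 = n2 + n3 + p * r)
    (hs : a0 + a1 + a2 + c0 + c1 + d0 + 2 * (x0 + x1 + y0) + t + 2 * 1 = 2 * 1 * p + 1) :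
    False := by
  have hrc : r = 0 ∨ r = 1 ∨ r = 2 := by omega
  rcases hrc with rfl | rfl | rfl <;> omega

theorem low_end2 (p r n1 n2 n3 t : ℤ) (hp : 11 ≤ p) (hr0 : 0 ≤ r) (hr2 : r ≤ 2)
    (hn1 : 0 ≤ n1) (hn2 : 0 ≤ n2) (hn3 : 0 ≤ n3) (ht : -1 ≤ t) (ht' : t ≤ 8)
    (a0 a1 a2 c0 c1 d0 x0 x1 y0 : ℤ)
    (ha0 : 0 ≤ a0) (ha1 : 0 ≤ a1) (ha2 : 0 ≤ a2) (hc0 : 0 ≤ c0) (hc1 : 0 ≤ c1)
    (hd0 : 0 ≤ d0)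
    (ha0' : a0 ≤ 1) (ha1' : a1 ≤ 1) (ha2' : a2 ≤ 1) (hc0' : c0 ≤ 1)
    (hc1' : c1 ≤ 1) (hd0' : d0 ≤ 1)
    (hx0 : 0 ≤ x0) (hx1 : 0 ≤ x1) (hy0 : 0 ≤ y0)
    (h1 : a0 + c0 + d0 = 2 + n1 + n2 + n3)
    (h2 : a2 + c1 + d0 + x1 + y0 = n3 - r)
    (h3 : a1 + c0 + c1 + d0 + x0 + y0 = n2 + n3 + p * r)
    (hs : a0 + a1 + a2 + c0 + c1 + d0 + 2 * (x0 + x1 + y0) + t + 2 * 2 = 2 * 2 * p + 1) :
    False := by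
  have hrc : r = 0 ∨ r = 1 ∨ r = 2 := by omega
  rcases hrc with rfl | rfl | rfl <;> omega

theorem low_end3 (p r n1 n2 n3 t : ℤ) (hp : 11 ≤ p) (hr0 : 0 ≤ r) (hr2 : r ≤ 2)
    (hn1 : 0 ≤ n1) (hn2 : 0 ≤ n2) (hn3 : 0 ≤ n3) (ht : -1 ≤ t) (ht' : t ≤ 8)
    (a0 a1 a2 c0 c1 d0 x0 x1 y0 : ℤ)
    (ha0 : 0 ≤ a0) (ha1 : 0 ≤ a1) (ha2 : 0 ≤ a2) (hc0 : 0 ≤ c0) (hc1 : 0 ≤ c1)
    (hd0 : 0 ≤ d0)
    (ha0' : a0 ≤ 1) (ha1' : a1 ≤ 1) (ha2' : a2 ≤ 1) (hc0' : c0 ≤ 1)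
    (hc1' : c1 ≤ 1) (hd0' : d0 ≤ 1)
    (hx0 : 0 ≤ x0) (hx1 : 0 ≤ x1) (hy0 : 0 ≤ y0)
    (h1 : a0 + c0 + d0 = 3 + n1 + n2 + n3)
    (h2 : a2 + c1 + d0 + x1 + y0 = n3 - r)
    (h3 : a1 + c0 + c1 + d0 + x0 + y0 = n2 + n3 + p * r)
    (hs : a0 + a1 + a2 + c0 + c1 + d0 + 2 * (x0 + x1 + y0) + t + 2 * 3 = 2 * 3 * p + 1) :
    False := by
  have hrc : r = 0 ∨ r = 1 ∨ r = 2 := by omega
  rcases hrc with rfl | rfl | rfl <;> omega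

theorem low_int (p k n1 n2 n3 t : ℤ) (hp : 11 ≤ p) (hk : 1 ≤ k) (hk3 : k ≤ 3)
    (hn1 : 0 ≤ n1) (hn2 : 0 ≤ n2) (hn3 : 0 ≤ n3) (hn1' : n1 ≤ 2)
    (hn2' : n2 ≤ 2) (hn3' : n3 ≤ 2) (ht : -1 ≤ t) (ht' : t ≤ 8)
    (a0 a1 a2 c0 c1 d0 x0 x1 y0 : ℤ)
    (ha0 : 0 ≤ a0) (ha1 : 0 ≤ a1) (ha2 : 0 ≤ a2) (hc0 : 0 ≤ c0) (hc1 : 0 ≤ c1)
    (hd0 : 0 ≤ d0)
    (ha0' : a0 ≤ 1) (ha1' : a1 ≤ 1) (ha2' : a2 ≤ 1) (hc0' : c0 ≤ 1)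
    (hc1' : c1 ≤ 1) (hd0' : d0 ≤ 1)
    (hx0 : 0 ≤ x0) (hx1 : 0 ≤ x1) (hy0 : 0 ≤ y0)
    (hW : k + n1 + n2 * (1 + p) + n3 * (1 + p + p ^ 2) = (a0 + c0 + d0) +
      p * (a1 + c0 + c1 + d0 + x0 + y0) + p ^ 2 * (a2 + c1 + d0 + x1 + y0))
    (hs : a0 + a1 + a2 + c0 + c1 + d0 + 2 * (x0 + x1 + y0) + t + 2 * k = 2 * k * p + 1) :
    False := by
  have hd : (a0 + c0 + d0 - (k + n1 + n2 + n3)) + p * ((a1 + c0 + c1 + d0 + x0 + y0 - n2 - n3) +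
      p * (a2 + c1 + d0 + x1 + y0 - n3)) = 0 := by linarith
  obtain ⟨h1, h2⟩ := digit hd (by linarith) (by linarith)
  obtain ⟨r, hr⟩ : ∃ r : ℤ, a2 + c1 + d0 + x1 + y0 = n3 - r := ⟨n3 - (a2 + c1 + d0 + x1 + y0),
    by ring⟩
  have h3 : a1 + c0 + c1 + d0 + x0 + y0 = n2 + n3 + p * r := by
    rw [hr] at h2; linarith
  have hr0 : 0 ≤ r := by
    by_contra hc
    push Not at hc
    nlinarith
  have hr2 : r ≤ 2 := by linarith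
  have hkc : k = 1 ∨ k = 2 ∨ k = 3 := by omega
  rcases hkc with rfl | rfl | rfl
  · exact low_end1 p r n1 n2 n3 t hp hr0 hr2 hn1 hn2 hn3 ht ht' a0 a1 a2 c0 c1 d0 x0 x1 y0
      ha0 ha1 ha2 hc0 hc1 hd0 ha0' ha1' ha2' hc0' hc1' hd0' hx0 hx1 hy0 (by linarith) hr h3
      (by linarith)
  · exact low_end2 p r n1 n2 n3 t hp hr0 hr2 hn1 hn2 hn3 ht ht' a0 a1 a2 c0 c1 d0 x0 x1 y0
      ha0 ha1 ha2 hc0 hc1 hd0 ha0' ha1' ha2' hc0' hc1' hd0' hx0 hx1 hy0 (by linarith) hr h3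
      (by linarith)
  · exact low_end3 p r n1 n2 n3 t hp hr0 hr2 hn1 hn2 hn3 ht ht' a0 a1 a2 c0 c1 d0 x0 x1 y0
      ha0 ha1 ha2 hc0 hc1 hd0 ha0' ha1' ha2' hc0' hc1' hd0' hx0 hx1 hy0 (by linarith) hr h3
      (by linarith)

/-- All the groups which obstruct `v_1`, `v_2`, `v_3` and the products on `V(1)`, `V(2)`, `V(3)`
have no monomials. -/
theorem no_mon_low (p k n1 n2 n3 : ℕ) (t : ℤ) (hp : 11 ≤ p) (hk : 1 ≤ k)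
    (hn1 : n1 ≤ 2) (hn2 : n2 ≤ 2) (hn3 : n3 ≤ 2) (ht : -1 ≤ t) (ht' : t ≤ 8) (x : Mon)
    (hs : (x.s : ℤ) + t + 2 * k = 2 * k * p + 1)
    (hW : x.W p = k + n1 + n2 * (1 + p) + n3 * (1 + p + p ^ 2)) : False := by
  have hp2 : 2 ≤ p := by omega
  have hl : (p : ℤ) * x.s ≤ 2 * x.W p + (p - 2) := by
    have := line hp2 x
    zify [hp2] at this
    exact this
  have hWz : (x.W p : ℤ) = k + n1 + n2 * (1 + p) + n3 * (1 + p + p ^ 2) := by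
    rw [hW]; push_cast; ring
  have hk3 := low_k p k x.s (x.W p) n1 n2 n3 t (by exact_mod_cast hp) (by exact_mod_cast hn1)
    (by exact_mod_cast hn2) (by exact_mod_cast hn3) ht' hl hs hWz
  have hW3 : x.W p < p ^ 3 := by
    rw [hW]
    have h1 : 11 * p ^ 2 ≤ p ^ 3 := by
      rw [pow_succ p 2, mul_comm]; exact Nat.mul_le_mul_left _ hp
    have h2 : n2 * (1 + p) ≤ 2 * (1 + p) := Nat.mul_le_mul_right _ hn2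
    have h3 : n3 * (1 + p + p ^ 2) ≤ 2 * (1 + p + p ^ 2) := Nat.mul_le_mul_right _ hn3
    have h4 : 11 * p ≤ p ^ 2 := by nlinarith
    have h5 : k ≤ 3 := by exact_mod_cast hk3
    omega
  have es := s_eq3 hp2 hW3
  have eW := W_eq3 hp2 hW3
  rw [es] at hs
  rw [hWz] at eW
  exact low_int p k n1 n2 n3 t (by exact_mod_cast hp) (by exact_mod_cast hk) hk3
    (by positivity) (by positivity) (by positivity) (by exact_mod_cast hn1)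
    (by exact_mod_cast hn2) (by exact_mod_cast hn3) ht ht' _ _ _ _ _ _ _ _ _
    (x.e_nonneg (0, 0)) (x.e_nonneg (0, 1)) (x.e_nonneg (0, 2))
    (x.e_nonneg (1, 0)) (x.e_nonneg (1, 1)) (x.e_nonneg (2, 0))
    (x.e_le_one (0, 0)) (x.e_le_one (0, 1)) (x.e_le_one (0, 2))
    (x.e_le_one (1, 0)) (x.e_le_one (1, 1)) (x.e_le_one (2, 0))
    (x.m_nonneg (0, 0)) (x.m_nonneg (0, 1)) (x.m_nonneg (1, 0)) eW hs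

end Vale.Agent.P257.H327
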