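import Vale.Agent.P257.H327.Enum3

open Finset

namespace Vale.Agent.P257.H327

open Mon

theorem X_k_le (p k s W c : ℕ) (hp : 11 ≤ p) (hl : p * s ≤ 2 * W + (p - 2)) (hc : c ≤ k + 1)
    (hs : s + 2 * k = 2 * p + 2 * k * p) (hW : W = 3 * p ^ 2 + p + 1 + c) : k ≤ 2 := by
  subst hW
  by_contra hc
  push Not at hc
  zify [show 2 ≤ p by omega] at *
  have h1 : (p:ℤ) * s = p * (2 * p + 2 * k * p - 2 * k) := by
    congr 1; linarith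
  have h2 : (3:ℤ) * (p * p - p - 1) ≤ k * (p * p - p - 1) := by
    apply mul_le_mul_of_nonneg_right
    · linarith
    · nlinarith
  nlinarith

theorem X_main (p c : ℕ) (hp : 11 ≤ p) (hc : c ≤ 4) (x : Mon)
    (hW : x.W p = 3 * p ^ 2 + p + 1 + c) : x.W p < p ^ 3 ∧
    ∃ r : ℤ, 0 ≤ r ∧ r ≤ 3 ∧ x.e (0, 0) + x.e (1, 0) + x.e (2, 0) = 1 + c ∧
      x.e (0, 2) + x.e (1, 1) + x.e (2, 0) + x.m (0, 1) + x.m (1, 0) = 3 - r ∧
      x.e (0, 1) + x.e (1, 0) + x.e (1, 1) + x.e (2, 0) + x.m (0, 0) + x.m (1, 0) = 1 + p * r ∧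
      (x.s : ℤ) = 2 * (p - 1) * r + 8 + (x.e (0, 0) + x.e (0, 1) + x.e (0, 2) + x.e (1, 0) +
        x.e (1, 1) + x.e (2, 0)) - 2 * (x.e (0, 1) + x.e (1, 0) + x.e (1, 1) + x.e (2, 0)) -
        2 * (x.e (0, 2) + x.e (1, 1) + x.e (2, 0)) - 2 * x.m (1, 0) := by
  have hp2 : 2 ≤ p := by omega
  have hW3 : x.W p < p ^ 3 := by
    rw [hW]
    have h1 : 11 * p ^ 2 ≤ p ^ 3 := by
      rw [pow_succ p 2, mul_comm]; exact Nat.mul_le_mul_left _ hp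
    have h4 : 11 * p ≤ p ^ 2 := by nlinarith
    omega
  have es := s_eq3 hp2 hW3
  have eW := W_eq3 hp2 hW3
  rw [hW] at eW
  push_cast at eW
  exact ⟨hW3, X_digits p c x.s (by exact_mod_cast hp) (by positivity) (by exact_mod_cast hc)
    _ _ _ _ _ _ _ _ _
    (x.e_nonneg (0, 0)) (x.e_nonneg (0, 1)) (x.e_nonneg (0, 2))
    (x.e_nonneg (1, 0)) (x.e_nonneg (1, 1)) (x.e_nonneg (2, 0))
    (x.e_le_one (0, 0)) (x.e_le_one (1, 0)) (x.e_le_one (2, 0))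
    (x.m_nonneg (0, 0)) (x.m_nonneg (0, 1)) (x.m_nonneg (1, 0)) eW es⟩

/-- The monomials in the tridegree `(2p-1, 3p^2+p+1)` of `ξ'`. -/
theorem enum_X (p : ℕ) (hp : 11 ≤ p) (x : Mon) (hs : x.s + 1 = 2 * p)
    (hW : x.W p = 3 * p ^ 2 + p + 1) :
    x = mk3 {(0,1), (1,0), (1,1)} (p - 3) 0 1 ∨ x = mk3 {(0,1), (1,1), (2,0)} (p - 2) 0 0 := by
  obtain ⟨hW3, r, hr0, hr3, h1, h2, h3, h4⟩ := X_main p 0 hp (by omega) x hW
  have hp2 : 2 ≤ p := by omega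
  have hs' : (x.s : ℤ) = 2 * p - 1 := by
    have : (x.s : ℤ) + 1 = 2 * p := by exact_mod_cast hs
    linarith
  rw [hs'] at h4
  have c1 : ((p - 3 : ℕ) : ℤ) = p - 3 := by push_cast [show 3 ≤ p by omega]; ring
  have c2 : ((p - 2 : ℕ) : ℤ) = p - 2 := by push_cast [show 2 ≤ p by omega]; ring
  rcases X_int0 p (by exact_mod_cast hp) _ _ _ _ _ _ _ _ _ r
    (x.e_nonneg (0, 0)) (x.e_nonneg (0, 1)) (x.e_nonneg (0, 2))
    (x.e_nonneg (1, 0)) (x.e_nonneg (1, 1)) (x.e_nonneg (2, 0))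
    (x.e_le_one (0, 1)) (x.e_le_one (1, 1))
    (x.m_nonneg (0, 1)) (x.m_nonneg (1, 0)) hr0 hr3 (by simpa using h1) h2 h3 h4 with
    ⟨g1, g2, g3, g4, g5, g6, g7, g8, g9⟩ | ⟨g1, g2, g3, g4, g5, g6, g7, g8, g9⟩
  · exact Or.inl (eq_vals3 hp2 hW3 (by decide) (g7.trans c1.symm) (g8.trans Nat.cast_zero.symm)
      (g9.trans Nat.cast_one.symm) g1 g2 g3 g4 g5 g6)
  · exact Or.inr (eq_vals3 hp2 hW3 (by decide) (g7.trans c2.symm) (g8.trans Nat.cast_zero.symm)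
      (g9.trans Nat.cast_zero.symm) g1 g2 g3 g4 g5 g6)

/-- No obstruction to lifting `ξ'`: no monomials in `(2p + 2k(p-1), 3p^2+p+1+k)`, `k ≥ 1`. -/
theorem no_mon_X (p k : ℕ) (hp : 11 ≤ p) (hk : 1 ≤ k) (x : Mon)
    (hs : x.s + 2 * k = 2 * p + 2 * k * p) (hW : x.W p = 3 * p ^ 2 + p + 1 + k) : False := by
  have hp2 : 2 ≤ p := by omega
  have hk2 := X_k_le p k _ _ k hp (line hp2 x) (by omega) hs hW
  obtain ⟨hW3, r, hr0, hr3, h1, h2, h3, h4⟩ := X_main p k hp (by omega) x hW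
  have hs' : (x.s : ℤ) = 2 * p + 2 * k * (p - 1) := by
    have : (x.s : ℤ) + 2 * k = 2 * p + 2 * k * p := by exact_mod_cast hs
    linarith
  rw [hs'] at h4
  exact X_int1 p k (by exact_mod_cast hp) (by exact_mod_cast hk) _ _ _ _ _ _ (x.m (0, 0)) _ _ r
    (x.e_nonneg (0, 0)) (x.e_nonneg (0, 1)) (x.e_nonneg (0, 2))
    (x.e_nonneg (1, 0)) (x.e_nonneg (1, 1)) (x.e_nonneg (2, 0))
    (x.e_le_one (0, 0)) (x.e_le_one (0, 1)) (x.e_le_one (0, 2))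
    (x.e_le_one (1, 0)) (x.e_le_one (1, 1)) (x.e_le_one (2, 0))
    (x.m_nonneg (0, 1)) (x.m_nonneg (1, 0)) hr0 hr3 h1 h2 h4

/-- no monomials in `(2p + 2k(p-1), 3p^2+p+2+k)`, `k ≥ 1` (the tail for `α_1 ξ' = 0`). -/
theorem no_mon_aX (p k : ℕ) (hp : 11 ≤ p) (hk : 1 ≤ k) (x : Mon)
    (hs : x.s + 2 * k = 2 * p + 2 * k * p) (hW : x.W p = 3 * p ^ 2 + p + 2 + k) : False := by
  have hp2 : 2 ≤ p := by omega
  have hW' : x.W p = 3 * p ^ 2 + p + 1 + (k + 1) := by rw [hW]; ring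
  have hk2 := X_k_le p k _ _ (k + 1) hp (line hp2 x) (by omega) hs hW'
  obtain ⟨hW3, r, hr0, hr3, h1, h2, h3, h4⟩ := X_main p (k + 1) hp (by omega) x hW'
  have hs' : (x.s : ℤ) = 2 * p + 2 * k * (p - 1) := by
    have : (x.s : ℤ) + 2 * k = 2 * p + 2 * k * p := by exact_mod_cast hs
    linarith
  rw [hs'] at h4
  exact X_int2 p k (by exact_mod_cast hp) (by exact_mod_cast hk) _ _ _ _ _ _ (x.m (0, 0)) _ _ r
    (x.e_nonneg (0, 0)) (x.e_nonneg (0, 1)) (x.e_nonneg (0, 2))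
    (x.e_nonneg (1, 0)) (x.e_nonneg (1, 1)) (x.e_nonneg (2, 0))
    (x.e_le_one (0, 0)) (x.e_le_one (0, 1)) (x.e_le_one (0, 2))
    (x.e_le_one (1, 0)) (x.e_le_one (1, 1)) (x.e_le_one (2, 0))
    (x.m_nonneg (0, 1)) (x.m_nonneg (1, 0)) hr0 hr3 (by rw [h1]; push_cast; ring) h2 h4

/-- The monomials in the tridegree `(2p, 3p^2+p+2)` of `α_1 ξ'`. -/
theorem enum_aX (p : ℕ) (hp : 11 ≤ p) (x : Mon) (hs : x.s = 2 * p)
    (hW : x.W p = 3 * p ^ 2 + p + 2) :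
    x = mk3 {(0,0), (0,1), (1,0), (1,1)} (p - 3) 0 1 ∨
    x = mk3 {(0,0), (0,1), (1,1), (2,0)} (p - 2) 0 0 ∨
    x = mk3 {(0,1), (0,2), (1,0), (2,0)} (p - 2) 0 0 ∨
    x = mk3 {(1,0), (2,0)} (p - 2) 0 1 := by
  obtain ⟨hW3, r, hr0, hr3, h1, h2, h3, h4⟩ := X_main p 1 hp (by omega) x (by rw [hW])
  have hp2 : 2 ≤ p := by omega
  have hs' : (x.s : ℤ) = 2 * p := by exact_mod_cast hs
  rw [hs'] at h4
  have c1 : ((p - 3 : ℕ) : ℤ) = p - 3 := by push_cast [show 3 ≤ p by omega]; ring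
  have c2 : ((p - 2 : ℕ) : ℤ) = p - 2 := by push_cast [show 2 ≤ p by omega]; ring
  rcases X_int3 p (by exact_mod_cast hp) _ _ _ _ _ _ _ _ _ r
    (x.e_nonneg (0, 0)) (x.e_nonneg (0, 1)) (x.e_nonneg (0, 2))
    (x.e_nonneg (1, 0)) (x.e_nonneg (1, 1)) (x.e_nonneg (2, 0))
    (x.e_le_one (0, 0)) (x.e_le_one (0, 2)) (x.e_le_one (1, 0)) (x.e_le_one (2, 0))
    (x.e_le_one (0, 1)) (x.e_le_one (1, 1))
    (x.m_nonneg (0, 1)) (x.m_nonneg (1, 0)) hr0 hr3 (by rw [h1]; norm_num) h2 h3 h4 with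
    ⟨g1, g2, g3, g4, g5, g6, g7, g8, g9⟩ | ⟨g1, g2, g3, g4, g5, g6, g7, g8, g9⟩ |
    ⟨g1, g2, g3, g4, g5, g6, g7, g8, g9⟩ | ⟨g1, g2, g3, g4, g5, g6, g7, g8, g9⟩
  · exact Or.inl (eq_vals3 hp2 hW3 (by decide) (g7.trans c1.symm) (g8.trans Nat.cast_zero.symm)
      (g9.trans Nat.cast_one.symm) g1 g2 g3 g4 g5 g6)
  · exact Or.inr (Or.inl (eq_vals3 hp2 hW3 (by decide) (g7.trans c2.symm)
      (g8.trans Nat.cast_zero.symm) (g9.trans Nat.cast_zero.symm) g1 g2 g3 g4 g5 g6))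
  · exact Or.inr (Or.inr (Or.inl (eq_vals3 hp2 hW3 (by decide) (g7.trans c2.symm)
      (g8.trans Nat.cast_zero.symm) (g9.trans Nat.cast_zero.symm) g1 g2 g3 g4 g5 g6)))
  · exact Or.inr (Or.inr (Or.inr (eq_vals3 hp2 hW3 (by decide) (g7.trans c2.symm)
      (g8.trans Nat.cast_zero.symm) (g9.trans Nat.cast_one.symm) g1 g2 g3 g4 g5 g6)))

end Vale.Agent.P257.H327
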