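import Vale.Agent.P257.H327.Enum6

open Finset

namespace Vale.Agent.P257.H327

open Mon

variable {p w0 w1 w2 s a0 a1 a2 a3 c0 c1 c2 d0 d1 f x0 x1 x2 y0 y1 z β γ : ℤ}

/-- the tails: `2 w1 - s = 2 - 2 k (p - 1)`, `w2 = 2` -/
theorem tail_zero (h : Dig p w0 w1 2 s a0 a1 a2 a3 c0 c1 c2 d0 d1 f x0 x1 x2 y0 y1 z β γ)
    (hp : 11 ≤ p) (k : ℤ) (hk : 1 ≤ k) (hk2 : k ≤ 2) (h1 : 2 * w1 - s = 2 - 2 * k * (p - 1)) :
    β = -k ∧ γ = 0 := by
  have he := h.eq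
  obtain ⟨ha0, ha1, ha2, ha3, hc0, hc1, hc2, hd0, hd1, hf, ha0', ha1', ha2', ha3', hc0', hc1',
    hc2', hd0', hd1', hf', hx0, hx1, hx2, hy0, hy1, hz, e0, e2, e3, e1, hs⟩ := h
  have hγ0 : 0 ≤ γ := by linarith
  have hβ : -2 ≤ β := by linarith
  have i1 : 0 ≤ (p - 1) * (β + 2) := by apply mul_nonneg <;> linarith
  have i0 : 0 ≤ (p - 1) * (k - 1) := by apply mul_nonneg <;> linarith
  have hγ : γ = 0 := by
    by_contra hc
    have hc' : 1 ≤ γ := by omega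
    have i2 : 0 ≤ (p ^ 2 - 1) * (γ - 1) := by
      apply mul_nonneg
      · nlinarith
      · linarith
    nlinarith
  subst hγ
  refine ⟨?_, rfl⟩
  have z1 : a3 = 0 := by linarith
  have z2 : c2 = 0 := by linarith
  have z3 : d1 = 0 := by linarith
  have z4 : f = 0 := by linarith
  have z5 : x2 = 0 := by linarith
  have z6 : y1 = 0 := by linarith
  have z7 : z = 0 := by linarith
  subst z1 z2 z3 z4 z5 z6 z7
  have hβ1 : β + k ≤ 0 := by
    by_contra hc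
    have hc' : 1 ≤ β + k := by omega
    have i3 : (2 * p - 2) * 1 ≤ (2 * p - 2) * (β + k) := by
      apply mul_le_mul_of_nonneg_left <;> linarith
    linarith
  have hβ2 : 0 ≤ β + k := by
    by_contra hc
    have hc' : β + k ≤ -1 := by omega
    have i3 : (2 * p) * (β + k) ≤ (2 * p) * (-1) := by
      apply mul_le_mul_of_nonneg_left <;> linarith
    linarith
  linarith

theorem tail1_int (h : Dig p w0 w1 2 s a0 a1 a2 a3 c0 c1 c2 d0 d1 f x0 x1 x2 y0 y1 z β γ)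
    (hp : 11 ≤ p) (k : ℤ) (hk : 1 ≤ k) (hk2 : k ≤ 2) (h1 : 2 * w1 - s = 2 - 2 * k * (p - 1))
    (hw : w0 = 1 + k ∨ w0 = 2 + k) : False := by
  obtain ⟨rfl, rfl⟩ := tail_zero h hp k hk hk2 h1
  have ht := h.tail rfl
  have he := h.eq
  obtain ⟨ha0, ha1, ha2, ha3, hc0, hc1, hc2, hd0, hd1, hf, ha0', ha1', ha2', ha3', hc0', hc1',
    hc2', hd0', hd1', hf', hx0, hx1, hx2, hy0, hy1, hz, e0, e2, e3, e1, hs⟩ := h
  obtain ⟨rfl, rfl, rfl, rfl, rfl, rfl, rfl⟩ := ht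
  clear hs
  have he' : a0 + a2 + 2 + 2 * k + 2 * x1 = a1 + c0 + c1 + d0 := by linarith
  clear he e1 h1
  have hkc : k = 1 ∨ k = 2 := by omega
  rcases hkc with rfl | rfl <;> omega

theorem tail_k_le (p k s W c : ℕ) (hp : 11 ≤ p) (hl : p * s ≤ 2 * W + (p - 2)) (hc : c ≤ k + 2)
    (hs : s + 2 * k = 6 + 2 * k * p) (hW : W = 2 * p ^ 2 + 4 * p + c) : k ≤ 2 := by
  subst hW
  by_contra hc
  push Not at hc
  zify [show 2 ≤ p by omega] at *
  have h1 : (p:ℤ) * s = p * (6 + 2 * k * p - 2 * k) := by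
    congr 1; linarith
  have h2 : (3:ℤ) * (p * p - p - 1) ≤ k * (p * p - p - 1) := by
    apply mul_le_mul_of_nonneg_right
    · linarith
    · nlinarith
  nlinarith

/-- No monomials in `(6 + 2k(p-1), 2p^2+4p+1+k)` and in `(6 + 2k(p-1), 2p^2+4p+2+k)`, `k ≥ 1`. -/
theorem no_mon_tail (p k c : ℕ) (hp : 11 ≤ p) (hk : 1 ≤ k) (hc : c = 1 ∨ c = 2) (x : Mon)
    (hs : x.s + 2 * k = 6 + 2 * k * p) (hW : x.W p = 2 * p ^ 2 + 4 * p + c + k) : False := by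
  have hp2 : 2 ≤ p := by omega
  have hk2 := tail_k_le p k _ _ (c + k) hp (line hp2 x) (by omega) hs (by rw [hW]; ring)
  have hW4 : x.W p < p ^ 4 := by
    have h2 : 11 * p ^ 3 ≤ p ^ 4 := by
      rw [pow_succ p 3, mul_comm]; exact Nat.mul_le_mul_left _ hp
    have h3 : 11 * p ^ 2 ≤ p ^ 3 := by
      rw [pow_succ p 2, mul_comm]; exact Nat.mul_le_mul_left _ hp
    have h4 : 11 * p ≤ p ^ 2 := by nlinarith
    rw [hW]
    omega
  have hs' : (x.s : ℤ) = 6 + 2 * k * (p - 1) := by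
    have : (x.s : ℤ) + 2 * k = 6 + 2 * k * p := by exact_mod_cast hs
    linarith
  have hkz : (k : ℤ) ≤ 2 := by exact_mod_cast hk2
  have hcz : (c : ℤ) = 1 ∨ (c : ℤ) = 2 := by rcases hc with rfl | rfl <;> simp
  obtain ⟨β, γ, hd⟩ := exists_dig p (c + k) 4 2 hp (by positivity)
    (by rcases hcz with h | h <;> rw [h] <;> linarith) x hW4
    (by rw [hW]; push_cast; ring)
  rw [hs'] at hd
  refine tail1_int hd (by exact_mod_cast hp) k (by exact_mod_cast hk) hkz (by ring) ?_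
  rcases hcz with h | h <;> rw [h] <;> simp

/-- No monomials in `(4, p^2+2p+3)`. -/
theorem no_mon_4 (p : ℕ) (hp : 11 ≤ p) (x : Mon)
    (hs : x.s = 4) (hW : x.W p = p ^ 2 + 2 * p + 3) : False := by
  have hp2 : 2 ≤ p := by omega
  have hW4 : x.W p < p ^ 4 := by
    have h2 : 11 * p ^ 3 ≤ p ^ 4 := by
      rw [pow_succ p 3, mul_comm]; exact Nat.mul_le_mul_left _ hp
    have h3 : 11 * p ^ 2 ≤ p ^ 3 := by
      rw [pow_succ p 2, mul_comm]; exact Nat.mul_le_mul_left _ hp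
    have h4 : 11 * p ≤ p ^ 2 := by nlinarith
    rw [hW]
    omega
  have hs' : (x.s : ℤ) = 4 := by exact_mod_cast hs
  obtain ⟨β, γ, hd⟩ := exists_dig p 3 2 1 hp (by norm_num) (by norm_num) x hW4
    (by rw [hW]; push_cast; ring)
  rw [hs'] at hd
  obtain ⟨rfl, rfl⟩ := hd.zero (by exact_mod_cast hp) (by norm_num) (by norm_num) (by norm_num)
  have he := hd.eq
  have ht := hd.tail rfl
  obtain ⟨ha0, ha1, ha2, ha3, hc0, hc1, hc2, hd0, hd1, hf, ha0', ha1', ha2', ha3', hc0', hc1',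
    hc2', hd0', hd1', hf', hx0, hx1, hx2, hy0, hy1, hz, e0, e2, e3, e1, hs⟩ := hd
  obtain ⟨t1, t2, t3, t4, t5, t6, t7⟩ := ht
  rw [t4] at e0
  linarith

end Vale.Agent.P257.H327
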