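import Vale.Agent.P257.H327.Enum1
import Vale.Agent.P257.H327.Enum2
import Vale.Agent.P257.H327.Enum4
import Vale.Agent.P257.H327.Enum7
import Vale.Agent.P257.H327.Enum11

/-!
# P257 / H327: enumeration of the monomials of `E(h_ij) ⊗ P(b_ij)` in the tridegrees used for `V(4)`

All statements are uniform in the integer `p ≥ 11`.

* `Mon`, `Mon.s`, `Mon.W`, `Mon.line` (vanishing line `p s ≤ 2 W + p - 2`);
* `enum_v4`: the targets of differentials on `v_4`;
* `no_mon_low`: the groups for `v_1, v_2, v_3` and the products on `V(1), V(2), V(3)`;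
* `enum_X`, `no_mon_X`, `enum_aX`, `no_mon_aX`: the groups around `ξ'`;
* `enum_kappa`, `enum_gamma`, `enum_beta`, `enum_alpha`: the groups divisible by powers of `b10`,
  `b11`; `no_mon_tail`, `no_mon_4`;
* `enum_Y`: the tridegree `(2p-1, p^4+p^3+p^2+p+2)`.
-/
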