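import Vale.Agent.P257.H327.EnumMain

namespace Vale.Agent.P257.H327

theorem mainB_end (p k a0 a1 a2 c0 c1 d0 x0 x1 y0 : ℤ)
    (ha0 : 0 ≤ a0) (ha2 : 0 ≤ a2) (hc0 : 0 ≤ c0) (hc1 : 0 ≤ c1)
    (ha1 : 0 ≤ a1) (hd0 : 0 ≤ d0) (ha1' : a1 ≤ 1) (hc1' : c1 ≤ 1)
    (hx1 : 0 ≤ x1)
    (hH0 : k = a0 + c0 + d0 - 1 + p)
    (e1 : x0 = 2 - (a1 + c0 + c1 + d0 + y0) - p * (a2 + c1 + d0 + x1 + y0 - 1) + p ^ 2)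
    (hu : 3 - (a0 + c0 + d0) - (a2 + c1 + d0 + x1 + y0) = 0)
    (e3 : a1 + c1 = 1 + 3 * a0 + a2 + c0 + d0 + 2 * x1) :
    (a0 = 0 ∧ x1 = 0) ∧
    ((k = p - 1 ∧ a1 = 1 ∧ c1 = 0 ∧ a2 = 0 ∧ c0 = 0 ∧ d0 = 0 ∧ y0 = 3 ∧ x0 = p ^ 2 - 2 * p - 2) ∨
     (k = p - 1 ∧ a1 = 0 ∧ c1 = 1 ∧ a2 = 0 ∧ c0 = 0 ∧ d0 = 0 ∧ y0 = 2 ∧ x0 = p ^ 2 - 2 * p - 1) ∨
     (k = p - 1 ∧ a1 = 1 ∧ c1 = 1 ∧ a2 = 1 ∧ c0 = 0 ∧ d0 = 0 ∧ y0 = 1 ∧ x0 = p ^ 2 - 2 * p - 1) ∨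
     (k = p ∧ a1 = 1 ∧ c1 = 1 ∧ a2 = 0 ∧ c0 = 1 ∧ d0 = 0 ∧ y0 = 1 ∧ x0 = p ^ 2 - p - 2) ∨
     (k = p ∧ a1 = 1 ∧ c1 = 1 ∧ a2 = 0 ∧ c0 = 0 ∧ d0 = 1 ∧ y0 = 0 ∧ x0 = p ^ 2 - p - 1)) := by
  have f1 : a0 = 0 := by omega
  have f2 : x1 = 0 := by omega
  subst f1 f2
  refine ⟨⟨rfl, rfl⟩, ?_⟩
  have g1 : a1 = 0 ∨ a1 = 1 := by omega
  have g2 : c1 = 0 ∨ c1 = 1 := by omega
  rcases g1 with g1 | g1 <;> rcases g2 with g2 | g2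
  · exfalso; omega
  · right; left
    have h1 : a2 = 0 := by omega
    have h2 : c0 = 0 := by omega
    have h3 : d0 = 0 := by omega
    subst g1 g2 h1 h2 h3
    have h4 : y0 = 2 := by omega
    subst h4
    exact ⟨by linarith, rfl, rfl, rfl, rfl, rfl, rfl, by linarith⟩
  · left
    have h1 : a2 = 0 := by omega
    have h2 : c0 = 0 := by omega
    have h3 : d0 = 0 := by omega
    subst g1 g2 h1 h2 h3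
    have h4 : y0 = 3 := by omega
    subst h4
    exact ⟨by linarith, rfl, rfl, rfl, rfl, rfl, rfl, by linarith⟩
  · have h0 : a2 + c0 + d0 = 1 := by omega
    have h1 : (a2 = 1 ∧ c0 = 0 ∧ d0 = 0) ∨ (a2 = 0 ∧ c0 = 1 ∧ d0 = 0) ∨
      (a2 = 0 ∧ c0 = 0 ∧ d0 = 1) := by omega
    rcases h1 with ⟨h1, h2, h3⟩ | ⟨h1, h2, h3⟩ | ⟨h1, h2, h3⟩
    · right; right; left
      subst g1 g2 h1 h2 h3
      have h4 : y0 = 1 := by omega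
      subst h4
      exact ⟨by linarith, rfl, rfl, rfl, rfl, rfl, rfl, by linarith⟩
    · right; right; right; left
      subst g1 g2 h1 h2 h3
      have h4 : y0 = 1 := by omega
      subst h4
      exact ⟨by linarith, rfl, rfl, rfl, rfl, rfl, rfl, by linarith⟩
    · right; right; right; right
      subst g1 g2 h1 h2 h3
      have h4 : y0 = 0 := by omega
      subst h4
      exact ⟨by linarith, rfl, rfl, rfl, rfl, rfl, rfl, by linarith⟩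

theorem mainB_mid (p k : ℤ) (hp : 11 ≤ p)
    (a0 a1 a2 c0 c1 d0 x0 x1 y0 : ℤ)
    (ha0 : 0 ≤ a0) (ha1 : 0 ≤ a1) (ha2 : 0 ≤ a2) (hc0 : 0 ≤ c0) (hc1 : 0 ≤ c1)
    (hd0 : 0 ≤ d0)
    (ha0' : a0 ≤ 1) (ha1' : a1 ≤ 1) (ha2' : a2 ≤ 1) (hc0' : c0 ≤ 1)
    (hc1' : c1 ≤ 1) (hd0' : d0 ≤ 1)
    (hx1 : 0 ≤ x1) (hy0 : 0 ≤ y0)
    (hH0 : k = a0 + c0 + d0 - 1 + p)
    (hmid : (a1 + c0 + c1 + d0 + x0 + y0 - 2) +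
      p * (a2 + c1 + d0 + x1 + y0 - 1) +
      p ^ 2 * (0 - 1) = 0)
    (hs : a0+a1+a2+c0+c1+d0 + 2*(x0+x1+y0) + 2*k = 2*k*p+1) :
    x0 = 2 - (a1 + c0 + c1 + d0 + y0) - p * (a2 + c1 + d0 + x1 + y0 - 1) + p ^ 2 ∧
    3 - (a0 + c0 + d0) - (a2 + c1 + d0 + x1 + y0) = 0 ∧
    a1 + c1 = 1 + 3 * a0 + a2 + c0 + d0 + 2 * x1 := by
  have e1 : x0 = 2 - (a1 + c0 + c1 + d0 + y0) - p * (a2 + c1 + d0 + x1 + y0 - 1) + p ^ 2 := by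
    linarith
  have e2 : 2 * p * (3 - (a0 + c0 + d0) - (a2 + c1 + d0 + x1 + y0)) =
      -1 + 2 * (a1 + c0 + c1 + d0) - 2 * (a0 + c0 + d0) - 2 * x1 -
        (a0 + a1 + a2 + c0 + c1 + d0) := by
    subst e1
    subst hH0
    linarith
  refine ⟨e1, ?_⟩
  clear e1 hmid hs hH0
  obtain ⟨u, hu⟩ : ∃ u : ℤ, 3 - (a0 + c0 + d0) - (a2 + c1 + d0 + x1 + y0) = u := ⟨_, rfl⟩
  rw [hu] at e2
  have hu1 : u ≤ 0 := by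
    by_contra hc
    push Not at hc
    have h1 : 2 * p * 1 ≤ 2 * p * u := by
      apply mul_le_mul_of_nonneg_left <;> linarith
    linarith
  have hu2 : 0 ≤ u := by
    by_contra hc
    push Not at hc
    have h1 : 2 * (p - 1) * u ≤ 2 * (p - 1) * (-1) := by
      apply mul_le_mul_of_nonneg_left <;> linarith
    linarith
  have hu3 : u = 0 := le_antisymm hu1 hu2
  subst hu3
  exact ⟨hu, by linarith⟩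

/-- Case `k = H0 - 1 + p`: only `k = p - 1` and `k = p` occur. -/
theorem mainB (p k : ℤ) (hp : 11 ≤ p)
    (a0 a1 a2 a3 c0 c1 c2 d0 d1 f x0 x1 x2 y0 y1 z : ℤ)
    (ha0 : 0 ≤ a0) (ha1 : 0 ≤ a1) (ha2 : 0 ≤ a2) (ha3 : 0 ≤ a3) (hc0 : 0 ≤ c0) (hc1 : 0 ≤ c1)
    (hc2 : 0 ≤ c2) (hd0 : 0 ≤ d0) (hd1 : 0 ≤ d1) (hf : 0 ≤ f)
    (ha0' : a0 ≤ 1) (ha1' : a1 ≤ 1) (ha2' : a2 ≤ 1) (ha3' : a3 ≤ 1) (hc0' : c0 ≤ 1)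
    (hc1' : c1 ≤ 1) (hc2' : c2 ≤ 1) (hd0' : d0 ≤ 1) (hd1' : d1 ≤ 1) (hf' : f ≤ 1)
    (hx0 : 0 ≤ x0) (hx1 : 0 ≤ x1) (hx2 : 0 ≤ x2) (hy0 : 0 ≤ y0) (hy1 : 0 ≤ y1) (hz : 0 ≤ z)
    (hH0 : k = a0 + c0 + d0 + f - 1 + p)
    (hmid : (a1 + c0 + c1 + d0 + d1 + f + x0 + y0 + z - 2) +
      p * (a2 + c1 + c2 + d0 + d1 + f + x1 + y0 + y1 + z - 1) +
      p ^ 2 * (a3 + c2 + d1 + f + x2 + y1 + z - 1) = 0)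
    (hs : a0+a1+a2+a3+c0+c1+c2+d0+d1+f + 2*(x0+x1+x2+y0+y1+z) + 2*k = 2*k*p+1) :
    (a3 = 0 ∧ c2 = 0 ∧ d1 = 0 ∧ f = 0 ∧ x2 = 0 ∧ y1 = 0 ∧ z = 0 ∧ a0 = 0 ∧ x1 = 0) ∧
    ((k = p - 1 ∧ a1 = 1 ∧ c1 = 0 ∧ a2 = 0 ∧ c0 = 0 ∧ d0 = 0 ∧ y0 = 3 ∧ x0 = p ^ 2 - 2 * p - 2) ∨
     (k = p - 1 ∧ a1 = 0 ∧ c1 = 1 ∧ a2 = 0 ∧ c0 = 0 ∧ d0 = 0 ∧ y0 = 2 ∧ x0 = p ^ 2 - 2 * p - 1) ∨
     (k = p - 1 ∧ a1 = 1 ∧ c1 = 1 ∧ a2 = 1 ∧ c0 = 0 ∧ d0 = 0 ∧ y0 = 1 ∧ x0 = p ^ 2 - 2 * p - 1) ∨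
     (k = p ∧ a1 = 1 ∧ c1 = 1 ∧ a2 = 0 ∧ c0 = 1 ∧ d0 = 0 ∧ y0 = 1 ∧ x0 = p ^ 2 - p - 2) ∨
     (k = p ∧ a1 = 1 ∧ c1 = 1 ∧ a2 = 0 ∧ c0 = 0 ∧ d0 = 1 ∧ y0 = 0 ∧ x0 = p ^ 2 - p - 1)) := by
  have htop : a3 + c2 + d1 + f + x2 + y1 + z ≤ 1 := by
    by_contra hc
    push Not at hc
    nlinarith [mul_nonneg (show (0:ℤ) ≤ p ^ 2 by positivity)
      (show (0:ℤ) ≤ a3 + c2 + d1 + f + x2 + y1 + z - 2 by linarith),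
      mul_nonneg (show (0:ℤ) ≤ p by linarith)
      (show (0:ℤ) ≤ a2 + c1 + c2 + d0 + d1 + f + x1 + y0 + y1 + z by linarith)]
  have htopc : a3 + c2 + d1 + f + x2 + y1 + z = 1 ∨ a3 + c2 + d1 + f + x2 + y1 + z = 0 := by omega
  have hks : 2 * (p - 1) * (p - 1) + 1 ≤ 2 * k * p + 1 - 2 * k := by
    have : 2 * (p - 1) * (k - (p - 1)) ≥ 0 := by
      apply mul_nonneg <;> linarith
    linarith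
  rcases htopc with h | h
  · exfalso
    rw [h] at hmid
    have hB : a2 + c1 + c2 + d0 + d1 + f + x1 + y0 + y1 + z ≤ 1 := by nlinarith
    have hB0 : p * (a2 + c1 + c2 + d0 + d1 + f + x1 + y0 + y1 + z) ≥ 0 := by
      apply mul_nonneg <;> linarith
    have hx : x0 ≤ p + 2 := by linarith
    have : 2 * (p - 1) * (p - 1) ≥ 20 * (p - 1) := by
      apply mul_le_mul_of_nonneg_right <;> linarith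
    linarith
  · have z1 : a3 = 0 := by omega
    have z2 : c2 = 0 := by omega
    have z3 : d1 = 0 := by omega
    have z4 : f = 0 := by omega
    have z5 : x2 = 0 := by omega
    have z6 : y1 = 0 := by omega
    have z7 : z = 0 := by omega
    subst z1 z2 z3 z4 z5 z6 z7
    have hH0' : k = a0 + c0 + d0 - 1 + p := by linarith
    obtain ⟨e1, hu, e3⟩ := mainB_mid p k hp a0 a1 a2 c0 c1 d0 x0 x1 y0 ha0 ha1 ha2 hc0 hc1 hd0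
      ha0' ha1' ha2' hc0' hc1' hd0' hx1 hy0 hH0' (by linarith) (by linarith)
    obtain ⟨⟨f1, f2⟩, f3⟩ := mainB_end p k a0 a1 a2 c0 c1 d0 x0 x1 y0 ha0 ha2 hc0 hc1 ha1 hd0 ha1'
      hc1' hx1 hH0' e1 hu e3
    exact ⟨⟨rfl, rfl, rfl, rfl, rfl, rfl, rfl, f1, f2⟩, f3⟩

end Vale.Agent.P257.H327
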