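import Vale.Agent.P257.H327.Mon
import Vale.Agent.P257.H327.EnumMain2

open Finset

namespace Vale.Agent.P257.H327

open Mon

theorem v4_k_le (p k s W : ℕ) (hp : 11 ≤ p) (hl : p * s ≤ 2 * W + (p - 2))
    (hs : s + 2 * k = 2 * k * p + 1) (hW : W = p ^ 3 + p ^ 2 + p + 1 + k) : k ≤ p + 2 := by
  subst hW
  by_contra hc
  push Not at hc
  zify [show 2 ≤ p by omega] at hl hs hc hp
  have h1 : (p:ℤ) * s = p * (2 * k * p + 1 - 2 * k) := by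
    congr 1; linarith
  have h2 : ((p:ℤ) + 3) * (p * p - p - 1) ≤ k * (p * p - p - 1) := by
    apply mul_le_mul_of_nonneg_right
    · linarith
    · nlinarith
  nlinarith

/-- integer form of the enumeration -/
theorem v4_int (p k : ℤ) (hp : 11 ≤ p) (hk : 1 ≤ k) (hkp : k ≤ p + 2)
    (a0 a1 a2 a3 c0 c1 c2 d0 d1 f x0 x1 x2 y0 y1 z : ℤ)
    (ha0 : 0 ≤ a0) (ha1 : 0 ≤ a1) (ha2 : 0 ≤ a2) (ha3 : 0 ≤ a3) (hc0 : 0 ≤ c0) (hc1 : 0 ≤ c1)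
    (hc2 : 0 ≤ c2) (hd0 : 0 ≤ d0) (hd1 : 0 ≤ d1) (hf : 0 ≤ f)
    (ha0' : a0 ≤ 1) (ha1' : a1 ≤ 1) (ha2' : a2 ≤ 1) (ha3' : a3 ≤ 1) (hc0' : c0 ≤ 1)
    (hc1' : c1 ≤ 1) (hc2' : c2 ≤ 1) (hd0' : d0 ≤ 1) (hd1' : d1 ≤ 1) (hf' : f ≤ 1)
    (hx0 : 0 ≤ x0) (hx1 : 0 ≤ x1) (hx2 : 0 ≤ x2) (hy0 : 0 ≤ y0) (hy1 : 0 ≤ y1) (hz : 0 ≤ z)
    (eW : p ^ 3 + p ^ 2 + p + 1 + k = (a0 + c0 + d0 + f) +
      p * (a1 + c0 + c1 + d0 + d1 + f + x0 + y0 + z) +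
      p ^ 2 * (a2 + c1 + c2 + d0 + d1 + f + x1 + y0 + y1 + z) +
      p ^ 3 * (a3 + c2 + d1 + f + x2 + y1 + z))
    (hs : a0+a1+a2+a3+c0+c1+c2+d0+d1+f + 2*(x0+x1+x2+y0+y1+z) + 2*k = 2*k*p+1) :
    (a3 = 0 ∧ c2 = 0 ∧ d1 = 0 ∧ f = 0 ∧ x2 = 0 ∧ y1 = 0 ∧ z = 0) ∧
    ((k = 1 ∧ a0 = 0 ∧ a1 = 1 ∧ a2 = 1 ∧ c0 = 1 ∧ c1 = 1 ∧ d0 = 1 ∧ x0 = 0 ∧ x1 = 0 ∧ y0 = p - 3) ∨
    (k = 1 ∧ a0 = 0 ∧ a1 = 0 ∧ a2 = 0 ∧ c0 = 1 ∧ c1 = 1 ∧ d0 = 1 ∧ x0 = 0 ∧ x1 = 0 ∧ y0 = p - 2) ∨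
    (k = 2 ∧ a0 = 1 ∧ a1 = 0 ∧ a2 = 0 ∧ c0 = 1 ∧ c1 = 0 ∧ d0 = 1 ∧ x0 = p - 2 ∧ x1 = p - 2 ∧
      y0 = 1) ∨
    (k = 2 ∧ a0 = 1 ∧ a1 = 1 ∧ a2 = 1 ∧ c0 = 1 ∧ c1 = 0 ∧ d0 = 1 ∧ x0 = p - 2 ∧ x1 = p - 2 ∧
      y0 = 0) ∨
    (k = p - 1 ∧ a0 = 0 ∧ a1 = 1 ∧ a2 = 0 ∧ c0 = 0 ∧ c1 = 0 ∧ d0 = 0 ∧ x0 = p ^ 2 - 2 * p - 2 ∧
      x1 = 0 ∧ y0 = 3) ∨
    (k = p - 1 ∧ a0 = 0 ∧ a1 = 0 ∧ a2 = 0 ∧ c0 = 0 ∧ c1 = 1 ∧ d0 = 0 ∧ x0 = p ^ 2 - 2 * p - 1 ∧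
      x1 = 0 ∧ y0 = 2) ∨
    (k = p - 1 ∧ a0 = 0 ∧ a1 = 1 ∧ a2 = 1 ∧ c0 = 0 ∧ c1 = 1 ∧ d0 = 0 ∧ x0 = p ^ 2 - 2 * p - 1 ∧
      x1 = 0 ∧ y0 = 1) ∨
    (k = p ∧ a0 = 0 ∧ a1 = 1 ∧ a2 = 0 ∧ c0 = 1 ∧ c1 = 1 ∧ d0 = 0 ∧ x0 = p ^ 2 - p - 2 ∧
      x1 = 0 ∧ y0 = 1) ∨
    (k = p ∧ a0 = 0 ∧ a1 = 1 ∧ a2 = 0 ∧ c0 = 0 ∧ c1 = 1 ∧ d0 = 1 ∧ x0 = p ^ 2 - p - 1 ∧
      x1 = 0 ∧ y0 = 0)) := by
  rcases le_or_gt k (p - 2) with hc | hc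
  · have hd : (a0 + c0 + d0 + f - 1 - k) + p * ((a1 + c0 + c1 + d0 + d1 + f + x0 + y0 + z - 1) +
      p * (a2 + c1 + c2 + d0 + d1 + f + x1 + y0 + y1 + z - 1) +
      p ^ 2 * (a3 + c2 + d1 + f + x2 + y1 + z - 1)) = 0 := by linarith
    obtain ⟨h1, h2⟩ := digit hd (by linarith) (by linarith)
    have hH0 : a0 + c0 + d0 + f = 1 + k := by linarith
    have htop : a3 + c2 + d1 + f + x2 + y1 + z ≤ 1 := by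
      by_contra hc
      push Not at hc
      have i1 : 0 ≤ p ^ 2 * (a3 + c2 + d1 + f + x2 + y1 + z - 2) := by
        apply mul_nonneg
        · positivity
        · linarith
      have i2 : 0 ≤ p * (a2 + c1 + c2 + d0 + d1 + f + x1 + y0 + y1 + z) := by
        apply mul_nonneg <;> linarith
      nlinarith
    have htopc : a3 + c2 + d1 + f + x2 + y1 + z = 1 ∨ a3 + c2 + d1 + f + x2 + y1 + z = 0 := by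
      omega
    rcases htopc with ht | ht
    · exfalso
      rw [ht] at h2
      exact mainA1 p k hp hk (by linarith) a0 a1 a2 a3 c0 c1 c2 d0 d1 f x0 x1 x2 y0 y1 z ha0 ha1
        ha2 ha3 hc0 hc1 hc2 hd0 hd1 hf ha0' ha1' ha2' ha3' hc0' hc1' hc2' hd0' hd1' hf' hx0 hx1
        hx2 hy0 hy1 hz hH0 ht (by linarith) hs
    · have z1 : a3 = 0 := by omega
      have z2 : c2 = 0 := by omega
      have z3 : d1 = 0 := by omega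
      have z4 : f = 0 := by omega
      have z5 : x2 = 0 := by omega
      have z6 : y1 = 0 := by omega
      have z7 : z = 0 := by omega
      subst z1 z2 z3 z4 z5 z6 z7
      refine ⟨⟨rfl, rfl, rfl, rfl, rfl, rfl, rfl⟩, ?_⟩
      rcases mainA2 p k hp hk a0 a1 a2 c0 c1 d0 x0 x1 y0 ha0 ha1 ha2 hc0 hc1 hd0 ha0' ha1' ha2'
        hc0' hc1' hd0' hx0 hx1 hy0 (by linarith) (by linarith) (by linarith) with h | h | h | h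
      · exact Or.inl h
      · exact Or.inr (Or.inl h)
      · exact Or.inr (Or.inr (Or.inl h))
      · exact Or.inr (Or.inr (Or.inr (Or.inl h)))
  · have hd : (a0 + c0 + d0 + f - 1 - k + p) +
      p * ((a1 + c0 + c1 + d0 + d1 + f + x0 + y0 + z - 2) +
      p * (a2 + c1 + c2 + d0 + d1 + f + x1 + y0 + y1 + z - 1) +
      p ^ 2 * (a3 + c2 + d1 + f + x2 + y1 + z - 1)) = 0 := by linarith
    obtain ⟨h1, h2⟩ := digit hd (by linarith) (by linarith)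
    obtain ⟨⟨z1, z2, z3, z4, z5, z6, z7, z8, z9⟩, h⟩ := mainB p k hp a0 a1 a2 a3 c0 c1 c2 d0 d1 f
      x0 x1 x2 y0 y1 z ha0 ha1 ha2 ha3 hc0 hc1 hc2 hd0 hd1 hf ha0' ha1' ha2' ha3' hc0' hc1' hc2'
      hd0' hd1' hf' hx0 hx1 hx2 hy0 hy1 hz (by linarith) h2 hs
    refine ⟨⟨z1, z2, z3, z4, z5, z6, z7⟩, ?_⟩
    rcases h with ⟨g0, g1, g2, g3, g4, g5, g6, g7⟩ | ⟨g0, g1, g2, g3, g4, g5, g6, g7⟩ |
      ⟨g0, g1, g2, g3, g4, g5, g6, g7⟩ | ⟨g0, g1, g2, g3, g4, g5, g6, g7⟩ |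
      ⟨g0, g1, g2, g3, g4, g5, g6, g7⟩
    · exact Or.inr (Or.inr (Or.inr (Or.inr (Or.inl ⟨g0, z8, g1, g3, g4, g2, g5, g7, z9, g6⟩))))
    · exact Or.inr (Or.inr (Or.inr (Or.inr (Or.inr (Or.inl
        ⟨g0, z8, g1, g3, g4, g2, g5, g7, z9, g6⟩)))))
    · exact Or.inr (Or.inr (Or.inr (Or.inr (Or.inr (Or.inr (Or.inl
        ⟨g0, z8, g1, g3, g4, g2, g5, g7, z9, g6⟩))))))
    · exact Or.inr (Or.inr (Or.inr (Or.inr (Or.inr (Or.inr (Or.inr (Or.inl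
        ⟨g0, z8, g1, g3, g4, g2, g5, g7, z9, g6⟩)))))))
    · exact Or.inr (Or.inr (Or.inr (Or.inr (Or.inr (Or.inr (Or.inr (Or.inr
        ⟨g0, z8, g1, g3, g4, g2, g5, g7, z9, g6⟩)))))))

theorem v4_cases (p k : ℕ) (hp : 11 ≤ p) (x : Mon) (hW4 : x.W p < p ^ 4)
    (t1 : x.e (0, 3) = 0) (t2 : x.e (1, 2) = 0) (t3 : x.e (2, 1) = 0) (t4 : x.e (3, 0) = 0)
    (t5 : x.m (0, 2) = 0) (t6 : x.m (1, 1) = 0) (t7 : x.m (2, 0) = 0)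
    (h : (k = (1 : ℤ) ∧ x.e (0, 0) = 0 ∧ x.e (0, 1) = 1 ∧ x.e (0, 2) = 1 ∧ x.e (1, 0) = 1 ∧
        x.e (1, 1) = 1 ∧ x.e (2, 0) = 1 ∧ x.m (0, 0) = 0 ∧ x.m (0, 1) = 0 ∧
        x.m (1, 0) = p - 3) ∨
      (k = (1 : ℤ) ∧ x.e (0, 0) = 0 ∧ x.e (0, 1) = 0 ∧ x.e (0, 2) = 0 ∧ x.e (1, 0) = 1 ∧
        x.e (1, 1) = 1 ∧ x.e (2, 0) = 1 ∧ x.m (0, 0) = 0 ∧ x.m (0, 1) = 0 ∧
        x.m (1, 0) = p - 2) ∨
      (k = (2 : ℤ) ∧ x.e (0, 0) = 1 ∧ x.e (0, 1) = 0 ∧ x.e (0, 2) = 0 ∧ x.e (1, 0) = 1 ∧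
        x.e (1, 1) = 0 ∧ x.e (2, 0) = 1 ∧ x.m (0, 0) = p - 2 ∧ x.m (0, 1) = p - 2 ∧
        x.m (1, 0) = 1) ∨
      (k = (2 : ℤ) ∧ x.e (0, 0) = 1 ∧ x.e (0, 1) = 1 ∧ x.e (0, 2) = 1 ∧ x.e (1, 0) = 1 ∧
        x.e (1, 1) = 0 ∧ x.e (2, 0) = 1 ∧ x.m (0, 0) = p - 2 ∧ x.m (0, 1) = p - 2 ∧
        x.m (1, 0) = 0) ∨
      (k = (p : ℤ) - 1 ∧ x.e (0, 0) = 0 ∧ x.e (0, 1) = 1 ∧ x.e (0, 2) = 0 ∧ x.e (1, 0) = 0 ∧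
        x.e (1, 1) = 0 ∧ x.e (2, 0) = 0 ∧ x.m (0, 0) = p ^ 2 - 2 * p - 2 ∧ x.m (0, 1) = 0 ∧
        x.m (1, 0) = 3) ∨
      (k = (p : ℤ) - 1 ∧ x.e (0, 0) = 0 ∧ x.e (0, 1) = 0 ∧ x.e (0, 2) = 0 ∧ x.e (1, 0) = 0 ∧
        x.e (1, 1) = 1 ∧ x.e (2, 0) = 0 ∧ x.m (0, 0) = p ^ 2 - 2 * p - 1 ∧ x.m (0, 1) = 0 ∧
        x.m (1, 0) = 2) ∨
      (k = (p : ℤ) - 1 ∧ x.e (0, 0) = 0 ∧ x.e (0, 1) = 1 ∧ x.e (0, 2) = 1 ∧ x.e (1, 0) = 0 ∧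
        x.e (1, 1) = 1 ∧ x.e (2, 0) = 0 ∧ x.m (0, 0) = p ^ 2 - 2 * p - 1 ∧ x.m (0, 1) = 0 ∧
        x.m (1, 0) = 1) ∨
      (k = (p : ℤ) ∧ x.e (0, 0) = 0 ∧ x.e (0, 1) = 1 ∧ x.e (0, 2) = 0 ∧ x.e (1, 0) = 1 ∧
        x.e (1, 1) = 1 ∧ x.e (2, 0) = 0 ∧ x.m (0, 0) = p ^ 2 - p - 2 ∧ x.m (0, 1) = 0 ∧
        x.m (1, 0) = 1) ∨
      (k = (p : ℤ) ∧ x.e (0, 0) = 0 ∧ x.e (0, 1) = 1 ∧ x.e (0, 2) = 0 ∧ x.e (1, 0) = 0 ∧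
        x.e (1, 1) = 1 ∧ x.e (2, 0) = 1 ∧ x.m (0, 0) = p ^ 2 - p - 1 ∧ x.m (0, 1) = 0 ∧
        x.m (1, 0) = 0)) :
    (k = 1 ∧ (x = mk4 {(0,1), (0,2), (1,0), (1,1), (2,0)} 0 0 0 (p - 3) 0 0 ∨
      x = mk4 {(1,0), (1,1), (2,0)} 0 0 0 (p - 2) 0 0)) ∨
    (k = 2 ∧ (x = mk4 {(0,0), (1,0), (2,0)} (p - 2) (p - 2) 0 1 0 0 ∨
      x = mk4 {(0,0), (0,1), (0,2), (1,0), (2,0)} (p - 2) (p - 2) 0 0 0 0)) ∨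
    (k + 1 = p ∧ (x = mk4 {(0,1)} (p ^ 2 - 2 * p - 2) 0 0 3 0 0 ∨
      x = mk4 {(1,1)} (p ^ 2 - 2 * p - 1) 0 0 2 0 0 ∨
      x = mk4 {(0,1), (0,2), (1,1)} (p ^ 2 - 2 * p - 1) 0 0 1 0 0)) ∨
    (k = p ∧ (x = mk4 {(0,1), (1,0), (1,1)} (p ^ 2 - p - 2) 0 0 1 0 0 ∨
      x = mk4 {(0,1), (1,1), (2,0)} (p ^ 2 - p - 1) 0 0 0 0 0)) := by
  have hp2 : 2 ≤ p := by omega
  have c1 : ((p - 3 : ℕ) : ℤ) = p - 3 := by push_cast [show 3 ≤ p by omega]; ring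
  have c2 : ((p - 2 : ℕ) : ℤ) = p - 2 := by push_cast [show 2 ≤ p by omega]; ring
  have q1 : 11 * p ≤ p ^ 2 := by nlinarith
  have c3 : ((p ^ 2 - 2 * p - 2 : ℕ) : ℤ) = p ^ 2 - 2 * p - 2 := by
    rw [Nat.sub_sub, Nat.cast_sub (by omega)]; push_cast; ring
  have c4 : ((p ^ 2 - 2 * p - 1 : ℕ) : ℤ) = p ^ 2 - 2 * p - 1 := by
    rw [Nat.sub_sub, Nat.cast_sub (by omega)]; push_cast; ring
  have c5 : ((p ^ 2 - p - 2 : ℕ) : ℤ) = p ^ 2 - p - 2 := by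
    rw [Nat.sub_sub, Nat.cast_sub (by omega)]; push_cast; ring
  have c6 : ((p ^ 2 - p - 1 : ℕ) : ℤ) = p ^ 2 - p - 1 := by
    rw [Nat.sub_sub, Nat.cast_sub (by omega)]; push_cast; ring
  rcases h with ⟨g0, g1, g2, g3, g4, g5, g6, g7, g8, g9⟩ |
    ⟨g0, g1, g2, g3, g4, g5, g6, g7, g8, g9⟩ | ⟨g0, g1, g2, g3, g4, g5, g6, g7, g8, g9⟩ |
    ⟨g0, g1, g2, g3, g4, g5, g6, g7, g8, g9⟩ | ⟨g0, g1, g2, g3, g4, g5, g6, g7, g8, g9⟩ |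
    ⟨g0, g1, g2, g3, g4, g5, g6, g7, g8, g9⟩ | ⟨g0, g1, g2, g3, g4, g5, g6, g7, g8, g9⟩ |
    ⟨g0, g1, g2, g3, g4, g5, g6, g7, g8, g9⟩ | ⟨g0, g1, g2, g3, g4, g5, g6, g7, g8, g9⟩
  · left
    exact ⟨by exact_mod_cast g0, Or.inl (eq_vals hp2 hW4 (by decide)
      (g7.trans (Nat.cast_zero).symm) (g8.trans (Nat.cast_zero).symm) (t5.trans (Nat.cast_zero).symm)
      (g9.trans c1.symm) (t6.trans (Nat.cast_zero).symm) (t7.trans (Nat.cast_zero).symm)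
      g1 g2 g3 t1 g4 g5 t2 g6 t3 t4)⟩
  · left
    exact ⟨by exact_mod_cast g0, Or.inr (eq_vals hp2 hW4 (by decide)
      (g7.trans (Nat.cast_zero).symm) (g8.trans (Nat.cast_zero).symm) (t5.trans (Nat.cast_zero).symm)
      (g9.trans c2.symm) (t6.trans (Nat.cast_zero).symm) (t7.trans (Nat.cast_zero).symm)
      g1 g2 g3 t1 g4 g5 t2 g6 t3 t4)⟩
  · right; left
    exact ⟨by exact_mod_cast g0, Or.inl (eq_vals hp2 hW4 (by decide)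
      (g7.trans c2.symm) (g8.trans c2.symm) (t5.trans (Nat.cast_zero).symm)
      (g9.trans (Nat.cast_one).symm) (t6.trans (Nat.cast_zero).symm) (t7.trans (Nat.cast_zero).symm)
      g1 g2 g3 t1 g4 g5 t2 g6 t3 t4)⟩
  · right; left
    exact ⟨by exact_mod_cast g0, Or.inr (eq_vals hp2 hW4 (by decide)
      (g7.trans c2.symm) (g8.trans c2.symm) (t5.trans (Nat.cast_zero).symm)
      (g9.trans (Nat.cast_zero).symm) (t6.trans (Nat.cast_zero).symm) (t7.trans (Nat.cast_zero).symm)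
      g1 g2 g3 t1 g4 g5 t2 g6 t3 t4)⟩
  · right; right; left
    exact ⟨by omega, Or.inl (eq_vals hp2 hW4 (by decide)
      (g7.trans c3.symm) (g8.trans (Nat.cast_zero).symm) (t5.trans (Nat.cast_zero).symm)
      (g9.trans (by norm_num)) (t6.trans (Nat.cast_zero).symm) (t7.trans (Nat.cast_zero).symm)
      g1 g2 g3 t1 g4 g5 t2 g6 t3 t4)⟩
  · right; right; left
    exact ⟨by omega, Or.inr (Or.inl (eq_vals hp2 hW4 (by decide)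
      (g7.trans c4.symm) (g8.trans (Nat.cast_zero).symm) (t5.trans (Nat.cast_zero).symm)
      (g9.trans (by norm_num)) (t6.trans (Nat.cast_zero).symm) (t7.trans (Nat.cast_zero).symm)
      g1 g2 g3 t1 g4 g5 t2 g6 t3 t4))⟩
  · right; right; left
    exact ⟨by omega, Or.inr (Or.inr (eq_vals hp2 hW4 (by decide)
      (g7.trans c4.symm) (g8.trans (Nat.cast_zero).symm) (t5.trans (Nat.cast_zero).symm)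
      (g9.trans (Nat.cast_one).symm) (t6.trans (Nat.cast_zero).symm) (t7.trans (Nat.cast_zero).symm)
      g1 g2 g3 t1 g4 g5 t2 g6 t3 t4))⟩
  · right; right; right
    exact ⟨by exact_mod_cast g0, Or.inl (eq_vals hp2 hW4 (by decide)
      (g7.trans c5.symm) (g8.trans (Nat.cast_zero).symm) (t5.trans (Nat.cast_zero).symm)
      (g9.trans (Nat.cast_one).symm) (t6.trans (Nat.cast_zero).symm) (t7.trans (Nat.cast_zero).symm)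
      g1 g2 g3 t1 g4 g5 t2 g6 t3 t4)⟩
  · right; right; right
    exact ⟨by exact_mod_cast g0, Or.inr (eq_vals hp2 hW4 (by decide)
      (g7.trans c6.symm) (g8.trans (Nat.cast_zero).symm) (t5.trans (Nat.cast_zero).symm)
      (g9.trans (Nat.cast_zero).symm) (t6.trans (Nat.cast_zero).symm) (t7.trans (Nat.cast_zero).symm)
      g1 g2 g3 t1 g4 g5 t2 g6 t3 t4)⟩


/-- The possible targets of differentials on `v_4`: the monomials in the tridegrees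
`(2 k (p - 1) + 1, (1 + p + p^2 + p^3) + k)`, `k ≥ 1`. -/
theorem enum_v4 (p k : ℕ) (hp : 11 ≤ p) (hk : 1 ≤ k) (x : Mon)
    (hs : x.s + 2 * k = 2 * k * p + 1) (hW : x.W p = p ^ 3 + p ^ 2 + p + 1 + k) :
    (k = 1 ∧ (x = mk4 {(0,1), (0,2), (1,0), (1,1), (2,0)} 0 0 0 (p - 3) 0 0 ∨
      x = mk4 {(1,0), (1,1), (2,0)} 0 0 0 (p - 2) 0 0)) ∨
    (k = 2 ∧ (x = mk4 {(0,0), (1,0), (2,0)} (p - 2) (p - 2) 0 1 0 0 ∨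
      x = mk4 {(0,0), (0,1), (0,2), (1,0), (2,0)} (p - 2) (p - 2) 0 0 0 0)) ∨
    (k + 1 = p ∧ (x = mk4 {(0,1)} (p ^ 2 - 2 * p - 2) 0 0 3 0 0 ∨
      x = mk4 {(1,1)} (p ^ 2 - 2 * p - 1) 0 0 2 0 0 ∨
      x = mk4 {(0,1), (0,2), (1,1)} (p ^ 2 - 2 * p - 1) 0 0 1 0 0)) ∨
    (k = p ∧ (x = mk4 {(0,1), (1,0), (1,1)} (p ^ 2 - p - 2) 0 0 1 0 0 ∨
      x = mk4 {(0,1), (1,1), (2,0)} (p ^ 2 - p - 1) 0 0 0 0 0)) := by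
  have hp2 : 2 ≤ p := by omega
  have hkp := v4_k_le p k _ _ hp (line hp2 x) hs hW
  have hW4 : x.W p < p ^ 4 := by
    rw [hW]
    have h1 : 11 * p ^ 3 ≤ p ^ 4 := by
      rw [pow_succ p 3, mul_comm]; exact Nat.mul_le_mul_left _ hp
    have h2 : p ^ 2 ≤ p ^ 3 := Nat.pow_le_pow_right (by omega) (by omega)
    have h3 : p ≤ p ^ 3 := Nat.le_self_pow (by omega) _
    omega
  have es := s_eq4 hp2 hW4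
  have eW := W_eq4 hp2 hW4
  have hs' : (x.s : ℤ) + 2 * k = 2 * k * p + 1 := by exact_mod_cast hs
  rw [hW] at eW
  push_cast at eW
  rw [es] at hs'
  clear es
  obtain ⟨⟨t1, t2, t3, t4, t5, t6, t7⟩, h⟩ := v4_int p k (by exact_mod_cast hp)
    (by exact_mod_cast hk) (by exact_mod_cast hkp)
    _ _ _ _ _ _ _ _ _ _ _ _ _ _ _ _
    (x.e_nonneg (0, 0)) (x.e_nonneg (0, 1)) (x.e_nonneg (0, 2)) (x.e_nonneg (0, 3))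
    (x.e_nonneg (1, 0)) (x.e_nonneg (1, 1)) (x.e_nonneg (1, 2)) (x.e_nonneg (2, 0))
    (x.e_nonneg (2, 1)) (x.e_nonneg (3, 0))
    (x.e_le_one (0, 0)) (x.e_le_one (0, 1)) (x.e_le_one (0, 2)) (x.e_le_one (0, 3))
    (x.e_le_one (1, 0)) (x.e_le_one (1, 1)) (x.e_le_one (1, 2)) (x.e_le_one (2, 0))
    (x.e_le_one (2, 1)) (x.e_le_one (3, 0))
    (x.m_nonneg (0, 0)) (x.m_nonneg (0, 1)) (x.m_nonneg (0, 2)) (x.m_nonneg (1, 0))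
    (x.m_nonneg (1, 1)) (x.m_nonneg (2, 0)) eW hs'
  exact v4_cases p k hp x hW4 t1 t2 t3 t4 t5 t6 t7 h

end Vale.Agent.P257.H327
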