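import Vale.Agent.P257.H327.Mon

open Finset

namespace Vale.Agent.P257.H327

theorem idx5_eq : idx 5 = {(0, 0), (0, 1), (0, 2), (0, 3), (0, 4), (1, 0), (1, 1), (1, 2), (1, 3), (2, 0), (2, 1), (2, 2), (3, 0), (3, 1), (4, 0)} := by decide

theorem sum_idx5 (f : ℕ × ℕ → ℤ) : ∑ a ∈ idx 5, f a =
    f (0, 0) + f (0, 1) + f (0, 2) + f (0, 3) + f (0, 4) + f (1, 0) + f (1, 1) + f (1, 2) + f (1, 3) + f (2, 0) + f (2, 1) + f (2, 2) + f (3, 0) + f (3, 1) + f (4, 0) := by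
  rw [idx5_eq]
  simp [sum_insert, add_assoc]

namespace Mon

theorem s_eq5 {p : ℕ} (hp : 2 ≤ p) {x : Mon} (hW : x.W p < p ^ 5) :
    (x.s : ℤ) = x.e (0, 0) + x.e (0, 1) + x.e (0, 2) + x.e (0, 3) + x.e (0, 4) + x.e (1, 0) + x.e (1, 1) + x.e (1, 2) + x.e (1, 3) + x.e (2, 0) + x.e (2, 1) + x.e (2, 2) + x.e (3, 0) + x.e (3, 1) + x.e (4, 0) + 2 * (x.m (0, 0) + x.m (0, 1) + x.m (0, 2) + x.m (0, 3) + x.m (1, 0) + x.m (1, 1) + x.m (1, 2) + x.m (2, 0) + x.m (2, 1) + x.m (3, 0)) := by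
  rw [s_eq (h_sub hp hW) (b_sub hp hW), sum_idx5, sum_idx4]

theorem W_eq5 {p : ℕ} (hp : 2 ≤ p) {x : Mon} (hW : x.W p < p ^ 5) :
    (x.W p : ℤ) = (x.e (0, 0) + x.e (1, 0) + x.e (2, 0) + x.e (3, 0) + x.e (4, 0)) +
      p * ((x.e (0, 1) + x.e (1, 0) + x.e (1, 1) + x.e (2, 0) + x.e (2, 1) + x.e (3, 0) + x.e (3, 1) + x.e (4, 0)) + (x.m (0, 0) + x.m (1, 0) + x.m (2, 0) + x.m (3, 0))) +
      p ^ 2 * ((x.e (0, 2) + x.e (1, 1) + x.e (1, 2) + x.e (2, 0) + x.e (2, 1) + x.e (2, 2) + x.e (3, 0) + x.e (3, 1) + x.e (4, 0)) + (x.m (0, 1) + x.m (1, 0) + x.m (1, 1) + x.m (2, 0) + x.m (2, 1) + x.m (3, 0))) +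
      p ^ 3 * ((x.e (0, 3) + x.e (1, 2) + x.e (1, 3) + x.e (2, 1) + x.e (2, 2) + x.e (3, 0) + x.e (3, 1) + x.e (4, 0)) + (x.m (0, 2) + x.m (1, 1) + x.m (1, 2) + x.m (2, 0) + x.m (2, 1) + x.m (3, 0))) +
      p ^ 4 * ((x.e (0, 4) + x.e (1, 3) + x.e (2, 2) + x.e (3, 1) + x.e (4, 0)) + (x.m (0, 3) + x.m (1, 2) + x.m (2, 1) + x.m (3, 0))) := by
  rw [W_eq (h_sub hp hW) (b_sub hp hW), sum_idx5, sum_idx4]
  simp only [wt, sum_range_succ, sum_range_zero]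
  push_cast
  ring

end Mon

end Vale.Agent.P257.H327
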