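import Vale.Agent.P257.H327.Enum9
import Vale.Agent.P257.H327.Mon5

open Finset

namespace Vale.Agent.P257.H327

/-- the carries of the enumeration in weight `p^4+p^3+p^2+p+2`, filtration `2p-1` -/
theorem Y_carry (p : ℤ) (hp : 11 ≤ p)
    (a0 a1 a2 a3 a4 c0 c1 c2 c3 d0 d1 d2 f0 f1 g x0 x1 x2 x3 y0 y1 y2 z0 z1 u : ℤ)
    (ha0 : 0 ≤ a0) (ha0' : a0 ≤ 1) (ha1 : 0 ≤ a1) (ha1' : a1 ≤ 1) (ha2 : 0 ≤ a2) (ha2' : a2 ≤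
    1) (ha3 : 0 ≤ a3) (ha3' : a3 ≤ 1) (ha4 : 0 ≤ a4) (ha4' : a4 ≤ 1) (hc0 : 0 ≤ c0) (hc0' : c0
    ≤ 1) (hc1 : 0 ≤ c1) (hc1' : c1 ≤ 1) (hc2 : 0 ≤ c2) (hc2' : c2 ≤ 1) (hc3 : 0 ≤ c3) (hc3' :
    c3 ≤ 1) (hd0 : 0 ≤ d0) (hd0' : d0 ≤ 1) (hd1 : 0 ≤ d1) (hd1' : d1 ≤ 1) (hd2 : 0 ≤ d2) (hd2'
    : d2 ≤ 1) (hf0 : 0 ≤ f0) (hf0' : f0 ≤ 1) (hf1 : 0 ≤ f1) (hf1' : f1 ≤ 1) (hg : 0 ≤ g) (hg' :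
    g ≤ 1) (hx0 : 0 ≤ x0) (hx1 : 0 ≤ x1) (hx2 : 0 ≤ x2) (hx3 : 0 ≤ x3) (hy0 : 0 ≤ y0) (hy1 : 0
    ≤ y1) (hy2 : 0 ≤ y2) (hz0 : 0 ≤ z0) (hz1 : 0 ≤ z1) (hu : 0 ≤ u)
    (eW : p ^ 4 + p ^ 3 + p ^ 2 + p + 2 = (a0 + c0 + d0 + f0 + g) +
      p * ((a1 + c0 + c1 + d0 + d1 + f0 + f1 + g) + (x0 + y0 + z0 + u)) +
      p ^ 2 * ((a2 + c1 + c2 + d0 + d1 + d2 + f0 + f1 + g) +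
        (x1 + y0 + y1 + z0 + z1 + u)) +
      p ^ 3 * ((a3 + c2 + c3 + d1 + d2 + f0 + f1 + g) + (x2 + y1 + y2 + z0 + z1 + u)) +
      p ^ 4 * ((a4 + c3 + d2 + f1 + g) + (x3 + y2 + z1 + u)))
    (hs : a0 + a1 + a2 + a3 + a4 + c0 + c1 + c2 + c3 + d0 + d1 + d2 + f0 + f1 + g +
      2 * (x0 + x1 + x2 + x3 + y0 + y1 + y2 + z0 + z1 + u) = 2 * p - 1) :
    a0 + c0 + d0 + f0 + g = 2 ∧ ∃ r1 r2 r3 : ℤ, (r1 = 0 ∨ r1 = 1) ∧ (r2 = 0 ∨ r2 = 1) ∧ (r3 = 0 ∨ r3 = 1) ∧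
    a1 + c0 + c1 + d0 + d1 + f0 + f1 + g + (x0 + y0 + z0 + u) = 1 + p * r1 ∧
    a2 + c1 + c2 + d0 + d1 + d2 + f0 + f1 + g + (x1 + y0 + y1 + z0 + z1 + u) =
      1 - r1 + p * r2 ∧
    a3 + c2 + c3 + d1 + d2 + f0 + f1 + g + (x2 + y1 + y2 + z0 + z1 + u) =
      1 - r2 + p * r3 ∧
    a4 + c3 + d2 + f1 + g + (x3 + y2 + z1 + u) = 1 - r3 := by
  obtain ⟨V0, hV0⟩ : ∃ V : ℤ, a0 + c0 + d0 + f0 + g = V := ⟨_, rfl⟩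
  obtain ⟨V1, hV1⟩ : ∃ V : ℤ, a1 + c0 + c1 + d0 + d1 + f0 + f1 + g + (x0 + y0 + z0 + u) = V := ⟨_, rfl⟩
  obtain ⟨V2, hV2⟩ : ∃ V : ℤ, a2 + c1 + c2 + d0 + d1 + d2 + f0 + f1 + g +
    (x1 + y0 + y1 + z0 + z1 + u) = V := ⟨_, rfl⟩
  obtain ⟨V3, hV3⟩ : ∃ V : ℤ, a3 + c2 + c3 + d1 + d2 + f0 + f1 + g +
    (x2 + y1 + y2 + z0 + z1 + u) = V := ⟨_, rfl⟩
  obtain ⟨V4, hV4⟩ : ∃ V : ℤ, a4 + c3 + d2 + f1 + g + (x3 + y2 + z1 + u) = V := ⟨_, rfl⟩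
  rw [hV0, hV1, hV2, hV3, hV4] at eW
  have b0 : 0 ≤ V0 := by linarith
  have b0' : V0 ≤ 5 := by linarith
  have b1 : 0 ≤ V1 := by linarith
  have b1' : V1 ≤ p + 8 := by linarith
  have b2 : 0 ≤ V2 := by linarith
  have b2' : V2 ≤ p + 8 := by linarith
  have b3 : 0 ≤ V3 := by linarith
  have b3' : V3 ≤ p + 8 := by linarith
  rw [hV0, hV1, hV2, hV3, hV4]
  clear hV0 hV1 hV2 hV3 hV4 hs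
  have d0 : (V0 - 2) + p * ((V1 - 1) + p * (V2 - 1) + p ^ 2 * (V3 - 1) + p ^ 3 * (V4 - 1)) = 0 := by
    linarith
  obtain ⟨c0, c0'⟩ := digit d0 (by linarith) (by linarith)
  have key : ∀ v w : ℤ, -p < v → v < 2 * p → v + p * w = 0 →
      ∃ r : ℤ, (r = 0 ∨ r = 1) ∧ v = p * r ∧ w = -r := by
    intro v w h1 h2 h3
    rcases lt_or_ge v p with h | h
    · obtain ⟨i1, i2⟩ := digit h3 h1 h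
      exact ⟨0, Or.inl rfl, by linarith, by linarith⟩
    · obtain ⟨i1, i2⟩ := digit (show (v - p) + p * (w + 1) = 0 by linarith) (by linarith)
        (by linarith)
      exact ⟨1, Or.inr rfl, by linarith, by linarith⟩
  obtain ⟨r1, hr1, i1, j1⟩ := key (V1 - 1) ((V2 - 1) + p * (V3 - 1) + p ^ 2 * (V4 - 1))
    (by linarith) (by linarith) (by linarith)
  have r1b : 0 ≤ r1 ∧ r1 ≤ 1 := by rcases hr1 with rfl | rfl <;> norm_num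
  obtain ⟨r2, hr2, i2, j2⟩ := key (V2 - 1 + r1) ((V3 - 1) + p * (V4 - 1))
    (by linarith) (by linarith) (by linarith)
  have r2b : 0 ≤ r2 ∧ r2 ≤ 1 := by rcases hr2 with rfl | rfl <;> norm_num
  obtain ⟨r3, hr3, i3, j3⟩ := key (V3 - 1 + r2) (V4 - 1)
    (by linarith) (by linarith) (by linarith)
  exact ⟨by linarith, r1, r2, r3, hr1, hr2, hr3, by linarith, by linarith, by linarith,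
    by linarith⟩

/-- the enumeration in weight `p^4+p^3+p^2+p+2`, filtration `2p-1` -/
theorem Y_enum_int (p : ℤ) (hp : 11 ≤ p)
    (a0 a1 a2 a3 a4 c0 c1 c2 c3 d0 d1 d2 f0 f1 g x0 x1 x2 x3 y0 y1 y2 z0 z1 u : ℤ)
    (ha0 : 0 ≤ a0) (ha0' : a0 ≤ 1) (ha1 : 0 ≤ a1) (ha1' : a1 ≤ 1) (ha2 : 0 ≤ a2) (ha2' : a2 ≤
    1) (ha3 : 0 ≤ a3) (ha3' : a3 ≤ 1) (ha4 : 0 ≤ a4) (ha4' : a4 ≤ 1) (hc0 : 0 ≤ c0) (hc0' : c0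
    ≤ 1) (hc1 : 0 ≤ c1) (hc1' : c1 ≤ 1) (hc2 : 0 ≤ c2) (hc2' : c2 ≤ 1) (hc3 : 0 ≤ c3) (hc3' :
    c3 ≤ 1) (hd0 : 0 ≤ d0) (hd0' : d0 ≤ 1) (hd1 : 0 ≤ d1) (hd1' : d1 ≤ 1) (hd2 : 0 ≤ d2) (hd2'
    : d2 ≤ 1) (hf0 : 0 ≤ f0) (hf0' : f0 ≤ 1) (hf1 : 0 ≤ f1) (hf1' : f1 ≤ 1) (hg : 0 ≤ g) (hg' :
    g ≤ 1) (hx0 : 0 ≤ x0) (hx1 : 0 ≤ x1) (hx2 : 0 ≤ x2) (hx3 : 0 ≤ x3) (hy0 : 0 ≤ y0) (hy1 : 0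
    ≤ y1) (hy2 : 0 ≤ y2) (hz0 : 0 ≤ z0) (hz1 : 0 ≤ z1) (hu : 0 ≤ u)
    (eW : p ^ 4 + p ^ 3 + p ^ 2 + p + 2 = (a0 + c0 + d0 + f0 + g) +
      p * ((a1 + c0 + c1 + d0 + d1 + f0 + f1 + g) + (x0 + y0 + z0 + u)) +
      p ^ 2 * ((a2 + c1 + c2 + d0 + d1 + d2 + f0 + f1 + g) +
        (x1 + y0 + y1 + z0 + z1 + u)) +
      p ^ 3 * ((a3 + c2 + c3 + d1 + d2 + f0 + f1 + g) + (x2 + y1 + y2 + z0 + z1 + u)) +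
      p ^ 4 * ((a4 + c3 + d2 + f1 + g) + (x3 + y2 + z1 + u)))
    (hs : a0 + a1 + a2 + a3 + a4 + c0 + c1 + c2 + c3 + d0 + d1 + d2 + f0 + f1 + g +
      2 * (x0 + x1 + x2 + x3 + y0 + y1 + y2 + z0 + z1 + u) = 2 * p - 1) :
    (a4 = 0 ∧ c3 = 0 ∧ d2 = 0 ∧ f1 = 0 ∧ g = 0 ∧ x3 = 0 ∧ y2 = 0 ∧ z1 = 0 ∧ u = 0) ∧
    (x0 = 0 ∧ x1 = 0 ∧ x2 = 0 ∧ y0 = 0 ∧ y1 = 0 ∧ f0 = 1 ∧ d1 = 1 ∧ a0 = 0) ∧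
    ((a1 = 1 ∧ a2 = 0 ∧ a3 = 1 ∧ c0 = 1 ∧ c1 = 1 ∧ c2 = 1 ∧ d0 = 0 ∧ z0 = p - 4) ∨
     (a1 = 1 ∧ a2 = 0 ∧ a3 = 0 ∧ c0 = 1 ∧ c1 = 0 ∧ c2 = 1 ∧ d0 = 0 ∧ z0 = p - 3) ∨
     (a1 = 1 ∧ a2 = 0 ∧ a3 = 1 ∧ c0 = 0 ∧ c1 = 0 ∧ c2 = 0 ∧ d0 = 1 ∧ z0 = p - 3) ∨
     (a1 = 0 ∧ a2 = 0 ∧ a3 = 1 ∧ c0 = 1 ∧ c1 = 1 ∧ c2 = 0 ∧ d0 = 0 ∧ z0 = p - 3) ∨
     (a1 = 0 ∧ a2 = 0 ∧ a3 = 0 ∧ c0 = 1 ∧ c1 = 0 ∧ c2 = 0 ∧ d0 = 0 ∧ z0 = p - 2)) := by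
  obtain ⟨e0, r1, r2, r3, hr1, hr2, hr3, e1, e2, e3, e4⟩ := Y_carry p hp a0 a1 a2 a3 a4 c0 c1 c2 c3 d0 d1 d2 f0 f1 g x0 x1 x2 x3 y0 y1 y2 z0 z1 u
    ha0 ha0' ha1 ha1' ha2 ha2' ha3 ha3' ha4 ha4' hc0 hc0' hc1 hc1' hc2 hc2' hc3 hc3' hd0 hd0' hd1 hd1' hd2 hd2' hf0 hf0' hf1 hf1' hg hg' hx0 hx1 hx2 hx3 hy0 hy1 hy2 hz0 hz1 hu eW hs
  clear eW
  rcases hr1 with rfl | rfl <;> rcases hr2 with rfl | rfl <;> rcases hr3 with rfl | rfl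
  · exact (Y_red000 p hp a0 a1 a2 a3 a4 c0 c1 c2 c3 d0 d1 d2 f0 f1 g x0 x1 x2 x3 y0 y1 y2 z0 z1 u
      ha0 ha0' ha1 ha1' ha2 ha2' ha3 ha3' ha4 ha4' hc0 hc0' hc1 hc1' hc2 hc2' hc3 hc3' hd0 hd0' hd1 hd1' hd2 hd2' hf0 hf0' hf1 hf1' hg hg' hx0 hx1 hx2 hx3 hy0 hy1 hy2 hz0 hz1 hu e0 e1 e2 e3 e4 hs).elim
  · exact (Y_red001 p hp a0 a1 a2 a3 a4 c0 c1 c2 c3 d0 d1 d2 f0 f1 g x0 x1 x2 x3 y0 y1 y2 z0 z1 u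
      ha0 ha0' ha1 ha1' ha2 ha2' ha3 ha3' ha4 ha4' hc0 hc0' hc1 hc1' hc2 hc2' hc3 hc3' hd0 hd0' hd1 hd1' hd2 hd2' hf0 hf0' hf1 hf1' hg hg' hx0 hx1 hx2 hx3 hy0 hy1 hy2 hz0 hz1 hu e0 e1 e2 e3 e4 hs).elim
  · exact (Y_red010 p hp a0 a1 a2 a3 a4 c0 c1 c2 c3 d0 d1 d2 f0 f1 g x0 x1 x2 x3 y0 y1 y2 z0 z1 u
      ha0 ha0' ha1 ha1' ha2 ha2' ha3 ha3' ha4 ha4' hc0 hc0' hc1 hc1' hc2 hc2' hc3 hc3' hd0 hd0' hd1 hd1' hd2 hd2' hf0 hf0' hf1 hf1' hg hg' hx0 hx1 hx2 hx3 hy0 hy1 hy2 hz0 hz1 hu e0 e1 e2 e3 e4 hs).elim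
  · exact (Y_red011 p hp a0 a1 a2 a3 a4 c0 c1 c2 c3 d0 d1 d2 f0 f1 g x0 x1 x2 x3 y0 y1 y2 z0 z1 u
      ha0 ha0' ha1 ha1' ha2 ha2' ha3 ha3' ha4 ha4' hc0 hc0' hc1 hc1' hc2 hc2' hc3 hc3' hd0 hd0' hd1 hd1' hd2 hd2' hf0 hf0' hf1 hf1' hg hg' hx0 hx1 hx2 hx3 hy0 hy1 hy2 hz0 hz1 hu e0 e1 e2 e3 e4 hs).elim
  · exact (Y_red100 p hp a0 a1 a2 a3 a4 c0 c1 c2 c3 d0 d1 d2 f0 f1 g x0 x1 x2 x3 y0 y1 y2 z0 z1 u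
      ha0 ha0' ha1 ha1' ha2 ha2' ha3 ha3' ha4 ha4' hc0 hc0' hc1 hc1' hc2 hc2' hc3 hc3' hd0 hd0' hd1 hd1' hd2 hd2' hf0 hf0' hf1 hf1' hg hg' hx0 hx1 hx2 hx3 hy0 hy1 hy2 hz0 hz1 hu e0 e1 e2 e3 e4 hs).elim
  · exact (Y_red101 p hp a0 a1 a2 a3 a4 c0 c1 c2 c3 d0 d1 d2 f0 f1 g x0 x1 x2 x3 y0 y1 y2 z0 z1 u
      ha0 ha0' ha1 ha1' ha2 ha2' ha3 ha3' ha4 ha4' hc0 hc0' hc1 hc1' hc2 hc2' hc3 hc3' hd0 hd0' hd1 hd1' hd2 hd2' hf0 hf0' hf1 hf1' hg hg' hx0 hx1 hx2 hx3 hy0 hy1 hy2 hz0 hz1 hu e0 e1 e2 e3 e4 hs).elim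
  · exact (Y_red110 p hp a0 a1 a2 a3 a4 c0 c1 c2 c3 d0 d1 d2 f0 f1 g x0 x1 x2 x3 y0 y1 y2 z0 z1 u
      ha0 ha0' ha1 ha1' ha2 ha2' ha3 ha3' ha4 ha4' hc0 hc0' hc1 hc1' hc2 hc2' hc3 hc3' hd0 hd0' hd1 hd1' hd2 hd2' hf0 hf0' hf1 hf1' hg hg' hx0 hx1 hx2 hx3 hy0 hy1 hy2 hz0 hz1 hu e0 e1 e2 e3 e4 hs).elim
  · have t1 : a4 = 0 := by linarith
    have t2 : c3 = 0 := by linarith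
    have t3 : d2 = 0 := by linarith
    have t4 : f1 = 0 := by linarith
    have t5 : g = 0 := by linarith
    have t6 : x3 = 0 := by linarith
    have t7 : y2 = 0 := by linarith
    have t8 : z1 = 0 := by linarith
    have t9 : u = 0 := by linarith
    subst t1 t2 t3 t4 t5 t6 t7 t8 t9
    refine ⟨⟨rfl, rfl, rfl, rfl, rfl, rfl, rfl, rfl, rfl⟩, ?_⟩
    exact Y_int p hp a0 a1 a2 a3 c0 c1 c2 d0 d1 f0 x0 x1 x2 y0 y1 z0 ha0 ha1 ha2 ha3 hc0 hc1 hc2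
      hd0 hd1 hf0 ha0' ha1' ha2' ha3' hc0' hc1' hc2' hd0' hd1' hf0' hx0 hx1 hx2 hy0 hy1 hz0
      (by linarith) (by linarith) (by linarith) (by linarith) (by linarith)

end Vale.Agent.P257.H327
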