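import Vale.Agent.P257.H327.Mon
import Vale.Agent.P257.H327.EnumCore

open Finset

namespace Vale.Agent.P257.H327

open Mon

/-- digits of the groups of weight `3p^2+p+1+c` -/
theorem X_digits (p c s : ℤ) (hp : 11 ≤ p) (hc : 0 ≤ c) (hc' : c ≤ 4)
    (a0 a1 a2 c0 c1 d0 x0 x1 y0 : ℤ)
    (ha0 : 0 ≤ a0) (ha1 : 0 ≤ a1) (ha2 : 0 ≤ a2) (hc0 : 0 ≤ c0) (hc1 : 0 ≤ c1)
    (hd0 : 0 ≤ d0)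
    (ha0' : a0 ≤ 1) (hc0' : c0 ≤ 1) (hd0' : d0 ≤ 1)
    (hx0 : 0 ≤ x0) (hx1 : 0 ≤ x1) (hy0 : 0 ≤ y0)
    (hW : 3 * p ^ 2 + p + 1 + c = (a0 + c0 + d0) +
      p * (a1 + c0 + c1 + d0 + x0 + y0) + p ^ 2 * (a2 + c1 + d0 + x1 + y0))
    (hs : s = a0 + a1 + a2 + c0 + c1 + d0 + 2 * (x0 + x1 + y0)) :
    ∃ r : ℤ, 0 ≤ r ∧ r ≤ 3 ∧ a0 + c0 + d0 = 1 + c ∧ a2 + c1 + d0 + x1 + y0 = 3 - r ∧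
      a1 + c0 + c1 + d0 + x0 + y0 = 1 + p * r ∧
      s = 2 * (p - 1) * r + 8 + (a0 + a1 + a2 + c0 + c1 + d0) - 2 * (a1 + c0 + c1 + d0) -
        2 * (a2 + c1 + d0) - 2 * y0 := by
  have hd : (a0 + c0 + d0 - (1 + c)) + p * ((a1 + c0 + c1 + d0 + x0 + y0 - 1) +
      p * (a2 + c1 + d0 + x1 + y0 - 3)) = 0 := by linarith
  obtain ⟨h1, h2⟩ := digit hd (by linarith) (by linarith)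
  obtain ⟨r, hr⟩ : ∃ r : ℤ, a2 + c1 + d0 + x1 + y0 = 3 - r := ⟨3 - (a2 + c1 + d0 + x1 + y0),
    by ring⟩
  have h3 : a1 + c0 + c1 + d0 + x0 + y0 = 1 + p * r := by
    rw [hr] at h2; linarith
  have hr0 : 0 ≤ r := by
    by_contra hc
    push Not at hc
    nlinarith
  refine ⟨r, hr0, by linarith, by linarith, hr, h3, ?_⟩
  have e1 : x0 = 1 + p * r - (a1 + c0 + c1 + d0 + y0) := by linarith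
  have e2 : x1 = 3 - r - (a2 + c1 + d0 + y0) := by linarith
  rw [hs, e1, e2]
  ring

theorem X_int0 (p : ℤ) (hp : 11 ≤ p)
    (a0 a1 a2 c0 c1 d0 x0 x1 y0 r : ℤ)
    (ha0 : 0 ≤ a0) (ha1 : 0 ≤ a1) (ha2 : 0 ≤ a2) (hc0 : 0 ≤ c0) (hc1 : 0 ≤ c1)
    (hd0 : 0 ≤ d0)
    (ha1' : a1 ≤ 1) (hc1' : c1 ≤ 1)
    (hx1 : 0 ≤ x1) (hy0 : 0 ≤ y0)
    (hr0 : 0 ≤ r) (hr3 : r ≤ 3) (h1 : a0 + c0 + d0 = 1) (h2 : a2 + c1 + d0 + x1 + y0 = 3 - r)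
    (h3 : a1 + c0 + c1 + d0 + x0 + y0 = 1 + p * r)
    (hs : 2 * p - 1 = 2 * (p - 1) * r + 8 + (a0 + a1 + a2 + c0 + c1 + d0) -
        2 * (a1 + c0 + c1 + d0) - 2 * (a2 + c1 + d0) - 2 * y0) :
    (a0 = 0 ∧ a1 = 1 ∧ a2 = 0 ∧ c0 = 1 ∧ c1 = 1 ∧ d0 = 0 ∧ x0 = p - 3 ∧ x1 = 0 ∧ y0 = 1) ∨
    (a0 = 0 ∧ a1 = 1 ∧ a2 = 0 ∧ c0 = 0 ∧ c1 = 1 ∧ d0 = 1 ∧ x0 = p - 2 ∧ x1 = 0 ∧ y0 = 0) := by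
  have hr : r = 0 ∨ r = 1 ∨ r = 2 ∨ r = 3 := by omega
  have hr1 : r = 1 := by
    rcases hr with rfl | rfl | rfl | rfl
    · exfalso; linarith
    · rfl
    · exfalso; linarith
    · exfalso; linarith
  subst hr1
  have e1 : a1 = 1 := by omega
  have e2 : c1 = 1 := by omega
  have e3 : a0 = 0 := by omega
  have e4 : a2 = 0 := by omega
  have e5 : x1 = 0 := by omega
  subst e1 e2 e3 e4 e5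
  have e6 : c0 = 1 ∨ c0 = 0 := by omega
  rcases e6 with rfl | rfl
  · left; refine ⟨rfl, rfl, rfl, rfl, rfl, ?_, ?_, rfl, ?_⟩ <;> omega
  · right; refine ⟨rfl, rfl, rfl, rfl, rfl, ?_, ?_, rfl, ?_⟩ <;> omega

theorem X_int1 (p k : ℤ) (hp : 11 ≤ p) (hk : 1 ≤ k)
    (a0 a1 a2 c0 c1 d0 x0 x1 y0 r : ℤ)
    (ha0 : 0 ≤ a0) (ha1 : 0 ≤ a1) (ha2 : 0 ≤ a2) (hc0 : 0 ≤ c0) (hc1 : 0 ≤ c1)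
    (hd0 : 0 ≤ d0)
    (ha0' : a0 ≤ 1) (ha1' : a1 ≤ 1) (ha2' : a2 ≤ 1) (hc0' : c0 ≤ 1)
    (hc1' : c1 ≤ 1) (hd0' : d0 ≤ 1)
    (hx1 : 0 ≤ x1) (hy0 : 0 ≤ y0)
    (hr0 : 0 ≤ r) (hr3 : r ≤ 3) (h1 : a0 + c0 + d0 = 1 + k)
    (h2 : a2 + c1 + d0 + x1 + y0 = 3 - r)
    (hs : 2 * p + 2 * k * (p - 1) = 2 * (p - 1) * r + 8 + (a0 + a1 + a2 + c0 + c1 + d0) -
        2 * (a1 + c0 + c1 + d0) - 2 * (a2 + c1 + d0) - 2 * y0) : False := by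
  have hk2 : k = 1 ∨ k = 2 := by omega
  have hr : r = 0 ∨ r = 1 ∨ r = 2 ∨ r = 3 := by omega
  rcases hk2 with rfl | rfl <;> rcases hr with rfl | rfl | rfl | rfl <;> omega

theorem X_int2 (p k : ℤ) (hp : 11 ≤ p) (hk : 1 ≤ k)
    (a0 a1 a2 c0 c1 d0 x0 x1 y0 r : ℤ)
    (ha0 : 0 ≤ a0) (ha1 : 0 ≤ a1) (ha2 : 0 ≤ a2) (hc0 : 0 ≤ c0) (hc1 : 0 ≤ c1)
    (hd0 : 0 ≤ d0)
    (ha0' : a0 ≤ 1) (ha1' : a1 ≤ 1) (ha2' : a2 ≤ 1) (hc0' : c0 ≤ 1)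
    (hc1' : c1 ≤ 1) (hd0' : d0 ≤ 1)
    (hx1 : 0 ≤ x1) (hy0 : 0 ≤ y0)
    (hr0 : 0 ≤ r) (hr3 : r ≤ 3) (h1 : a0 + c0 + d0 = 2 + k)
    (h2 : a2 + c1 + d0 + x1 + y0 = 3 - r)
    (hs : 2 * p + 2 * k * (p - 1) = 2 * (p - 1) * r + 8 + (a0 + a1 + a2 + c0 + c1 + d0) -
        2 * (a1 + c0 + c1 + d0) - 2 * (a2 + c1 + d0) - 2 * y0) : False := by
  have hk2 : k = 1 := by omega
  have hr : r = 0 ∨ r = 1 ∨ r = 2 ∨ r = 3 := by omega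
  subst hk2
  rcases hr with rfl | rfl | rfl | rfl <;> omega

theorem X_int3 (p : ℤ) (hp : 11 ≤ p)
    (a0 a1 a2 c0 c1 d0 x0 x1 y0 r : ℤ)
    (ha0 : 0 ≤ a0) (ha1 : 0 ≤ a1) (ha2 : 0 ≤ a2) (hc0 : 0 ≤ c0) (hc1 : 0 ≤ c1)
    (hd0 : 0 ≤ d0) (ha0' : a0 ≤ 1) (ha2' : a2 ≤ 1) (hc0' : c0 ≤ 1) (hd0' : d0 ≤ 1)
    (ha1' : a1 ≤ 1) (hc1' : c1 ≤ 1)
    (hx1 : 0 ≤ x1) (hy0 : 0 ≤ y0)
    (hr0 : 0 ≤ r) (hr3 : r ≤ 3) (h1 : a0 + c0 + d0 = 2) (h2 : a2 + c1 + d0 + x1 + y0 = 3 - r)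
    (h3 : a1 + c0 + c1 + d0 + x0 + y0 = 1 + p * r)
    (hs : 2 * p = 2 * (p - 1) * r + 8 + (a0 + a1 + a2 + c0 + c1 + d0) -
        2 * (a1 + c0 + c1 + d0) - 2 * (a2 + c1 + d0) - 2 * y0) :
    (a0 = 1 ∧ a1 = 1 ∧ a2 = 0 ∧ c0 = 1 ∧ c1 = 1 ∧ d0 = 0 ∧ x0 = p - 3 ∧ x1 = 0 ∧ y0 = 1) ∨
    (a0 = 1 ∧ a1 = 1 ∧ a2 = 0 ∧ c0 = 0 ∧ c1 = 1 ∧ d0 = 1 ∧ x0 = p - 2 ∧ x1 = 0 ∧ y0 = 0) ∨
    (a0 = 0 ∧ a1 = 1 ∧ a2 = 1 ∧ c0 = 1 ∧ c1 = 0 ∧ d0 = 1 ∧ x0 = p - 2 ∧ x1 = 0 ∧ y0 = 0) ∨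
    (a0 = 0 ∧ a1 = 0 ∧ a2 = 0 ∧ c0 = 1 ∧ c1 = 0 ∧ d0 = 1 ∧ x0 = p - 2 ∧ x1 = 0 ∧ y0 = 1) := by
  have hr : r = 0 ∨ r = 1 ∨ r = 2 ∨ r = 3 := by omega
  have hr1 : r = 1 := by
    rcases hr with rfl | rfl | rfl | rfl
    · exfalso; linarith
    · rfl
    · exfalso; linarith
    · exfalso; linarith
  subst hr1
  have hc : (a0 = 1 ∧ c0 = 1 ∧ d0 = 0) ∨ (a0 = 1 ∧ c0 = 0 ∧ d0 = 1) ∨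
    (a0 = 0 ∧ c0 = 1 ∧ d0 = 1) := by omega
  rcases hc with ⟨rfl, rfl, rfl⟩ | ⟨rfl, rfl, rfl⟩ | ⟨rfl, rfl, rfl⟩
  · left
    refine ⟨rfl, ?_, ?_, rfl, ?_, rfl, ?_, ?_, ?_⟩ <;> omega
  · right; left
    refine ⟨rfl, ?_, ?_, rfl, ?_, rfl, ?_, ?_, ?_⟩ <;> omega
  · right; right
    have e1 : c1 = 0 := by omega
    have e2 : a1 = 0 ∨ a1 = 1 := by omega
    rcases e2 with rfl | rfl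
    · right
      refine ⟨rfl, rfl, ?_, rfl, e1, rfl, ?_, ?_, ?_⟩ <;> omega
    · left
      refine ⟨rfl, rfl, ?_, rfl, e1, rfl, ?_, ?_, ?_⟩ <;> omega

end Vale.Agent.P257.H327
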