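import Vale.Agent.P257.H327.Mon
import Vale.Agent.P257.H327.EnumCore

open Finset

namespace Vale.Agent.P257.H327

open Mon

/-- the nonnegativity and digit facts for a monomial of weight `w0 + p w1 + p^2 w2 < p^4` -/
structure Dig (p w0 w1 w2 s a0 a1 a2 a3 c0 c1 c2 d0 d1 f x0 x1 x2 y0 y1 z β γ : ℤ) : Prop where
  ha0 : 0 ≤ a0
  ha1 : 0 ≤ a1
  ha2 : 0 ≤ a2
  ha3 : 0 ≤ a3
  hc0 : 0 ≤ c0
  hc1 : 0 ≤ c1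
  hc2 : 0 ≤ c2
  hd0 : 0 ≤ d0
  hd1 : 0 ≤ d1
  hf : 0 ≤ f
  ha0' : a0 ≤ 1
  ha1' : a1 ≤ 1
  ha2' : a2 ≤ 1
  ha3' : a3 ≤ 1
  hc0' : c0 ≤ 1
  hc1' : c1 ≤ 1
  hc2' : c2 ≤ 1
  hd0' : d0 ≤ 1
  hd1' : d1 ≤ 1
  hf' : f ≤ 1
  hx0 : 0 ≤ x0
  hx1 : 0 ≤ x1
  hx2 : 0 ≤ x2
  hy0 : 0 ≤ y0
  hy1 : 0 ≤ y1
  hz : 0 ≤ z
  e0 : a0 + c0 + d0 + f = w0
  e2 : a2 + c1 + c2 + d0 + d1 + f + x1 + y0 + y1 + z = w2 + β
  e3 : a3 + c2 + d1 + f + x2 + y1 + z = γ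
  e1 : a1 + c0 + c1 + d0 + d1 + f + x0 + y0 + z = w1 - p * β - p ^ 2 * γ
  hs : s = a0 + a1 + a2 + a3 + c0 + c1 + c2 + d0 + d1 + f + 2 * (x0 + x1 + x2 + y0 + y1 + z)

theorem exists_dig (p : ℕ) (w0 w1 w2 : ℤ) (hp : 11 ≤ p) (h0 : 0 ≤ w0) (h0' : w0 ≤ 4) (x : Mon)
    (hW4 : x.W p < p ^ 4) (hW : (x.W p : ℤ) = w0 + p * w1 + p ^ 2 * w2) :
    ∃ β γ : ℤ, Dig p w0 w1 w2 x.s (x.e (0, 0)) (x.e (0, 1)) (x.e (0, 2)) (x.e (0, 3))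
      (x.e (1, 0)) (x.e (1, 1)) (x.e (1, 2)) (x.e (2, 0)) (x.e (2, 1)) (x.e (3, 0))
      (x.m (0, 0)) (x.m (0, 1)) (x.m (0, 2)) (x.m (1, 0)) (x.m (1, 1)) (x.m (2, 0)) β γ := by
  have hp2 : 2 ≤ p := by omega
  have es := s_eq4 hp2 hW4
  have eW := W_eq4 hp2 hW4
  rw [hW] at eW
  have hpz : (11 : ℤ) ≤ p := by exact_mod_cast hp
  have hd : (x.e (0, 0) + x.e (1, 0) + x.e (2, 0) + x.e (3, 0) - w0) +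
      p * ((x.e (0, 1) + x.e (1, 0) + x.e (1, 1) + x.e (2, 0) + x.e (2, 1) + x.e (3, 0) +
        x.m (0, 0) + x.m (1, 0) + x.m (2, 0) - w1) +
      p * (x.e (0, 2) + x.e (1, 1) + x.e (1, 2) + x.e (2, 0) + x.e (2, 1) + x.e (3, 0) +
        x.m (0, 1) + x.m (1, 0) + x.m (1, 1) + x.m (2, 0) - w2) +
      p ^ 2 * (x.e (0, 3) + x.e (1, 2) + x.e (2, 1) + x.e (3, 0) + x.m (0, 2) + x.m (1, 1) +
        x.m (2, 0))) = 0 := by linarith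
  have o1 := x.e_le_one (0, 0)
  have o5 := x.e_le_one (1, 0)
  have o8 := x.e_le_one (2, 0)
  have o10 := x.e_le_one (3, 0)
  have n1 := x.e_nonneg (0, 0)
  have n5 := x.e_nonneg (1, 0)
  have n8 := x.e_nonneg (2, 0)
  have n10 := x.e_nonneg (3, 0)
  obtain ⟨h1, h2⟩ := digit hd (by linarith) (by linarith)
  refine ⟨x.e (0, 2) + x.e (1, 1) + x.e (1, 2) + x.e (2, 0) + x.e (2, 1) + x.e (3, 0) +
        x.m (0, 1) + x.m (1, 0) + x.m (1, 1) + x.m (2, 0) - w2,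
        x.e (0, 3) + x.e (1, 2) + x.e (2, 1) + x.e (3, 0) + x.m (0, 2) + x.m (1, 1) +
        x.m (2, 0), ?_⟩
  exact {
    ha0 := n1
    ha1 := x.e_nonneg _
    ha2 := x.e_nonneg _
    ha3 := x.e_nonneg _
    hc0 := n5
    hc1 := x.e_nonneg _
    hc2 := x.e_nonneg _
    hd0 := n8
    hd1 := x.e_nonneg _
    hf := n10
    ha0' := o1
    ha1' := x.e_le_one _
    ha2' := x.e_le_one _
    ha3' := x.e_le_one _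
    hc0' := o5
    hc1' := x.e_le_one _
    hc2' := x.e_le_one _
    hd0' := o8
    hd1' := x.e_le_one _
    hf' := o10
    hx0 := x.m_nonneg _
    hx1 := x.m_nonneg _
    hx2 := x.m_nonneg _
    hy0 := x.m_nonneg _
    hy1 := x.m_nonneg _
    hz := x.m_nonneg _
    e0 := by linarith
    e2 := by ring
    e3 := rfl
    e1 := by linarith
    hs := es }

variable {p w0 w1 w2 s a0 a1 a2 a3 c0 c1 c2 d0 d1 f x0 x1 x2 y0 y1 z β γ : ℤ}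

/-- the tails vanish -/
structure Tail (a3 c2 d1 f x2 y1 z : ℤ) : Prop where
  ha3 : a3 = 0
  hc2 : c2 = 0
  hd1 : d1 = 0
  hf : f = 0
  hx2 : x2 = 0
  hy1 : y1 = 0
  hz : z = 0

theorem Dig.tail (h : Dig p w0 w1 w2 s a0 a1 a2 a3 c0 c1 c2 d0 d1 f x0 x1 x2 y0 y1 z β γ)
    (hγ : γ = 0) : Tail a3 c2 d1 f x2 y1 z := by
  obtain ⟨ha0, ha1, ha2, ha3, hc0, hc1, hc2, hd0, hd1, hf, ha0', ha1', ha2', ha3', hc0', hc1',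
    hc2', hd0', hd1', hf', hx0, hx1, hx2, hy0, hy1, hz, e0, e2, e3, e1, hs⟩ := h
  subst hγ
  constructor <;> linarith

/-- the filtration equation -/
theorem Dig.eq (h : Dig p w0 w1 w2 s a0 a1 a2 a3 c0 c1 c2 d0 d1 f x0 x1 x2 y0 y1 z β γ) :
    2 * p * β + 2 * p ^ 2 * γ = a0 + a1 + a2 + a3 + c0 + c1 + c2 + d0 + d1 + f + 2 * w1 - s -
      2 * (a1 + c0 + c1 + d0 + d1 + f) + 2 * (x1 + x2 + y1) := by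
  obtain ⟨ha0, ha1, ha2, ha3, hc0, hc1, hc2, hd0, hd1, hf, ha0', ha1', ha2', ha3', hc0', hc1',
    hc2', hd0', hd1', hf', hx0, hx1, hx2, hy0, hy1, hz, e0, e2, e3, e1, hs⟩ := h
  have : x0 = w1 - p * β - p ^ 2 * γ - (a1 + c0 + c1 + d0 + d1 + f + y0 + z) := by linarith
  rw [hs, this]
  ring

theorem Dig.γ_nonneg
    (h : Dig p w0 w1 w2 s a0 a1 a2 a3 c0 c1 c2 d0 d1 f x0 x1 x2 y0 y1 z β γ) : 0 ≤ γ := by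
  obtain ⟨ha0, ha1, ha2, ha3, hc0, hc1, hc2, hd0, hd1, hf, ha0', ha1', ha2', ha3', hc0', hc1',
    hc2', hd0', hd1', hf', hx0, hx1, hx2, hy0, hy1, hz, e0, e2, e3, e1, hs⟩ := h
  linarith

/-- If `2 w1 - s` and `w2` are small then `β = γ = 0`. -/
theorem Dig.zero (h : Dig p w0 w1 w2 s a0 a1 a2 a3 c0 c1 c2 d0 d1 f x0 x1 x2 y0 y1 z β γ)
    (hp : 11 ≤ p) (h1 : 0 ≤ 2 * w1 - s) (h1' : 2 * w1 - s ≤ 3) (hw : w2 ≤ 3) :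
    β = 0 ∧ γ = 0 := by
  have he := h.eq
  obtain ⟨ha0, ha1, ha2, ha3, hc0, hc1, hc2, hd0, hd1, hf, ha0', ha1', ha2', ha3', hc0', hc1',
    hc2', hd0', hd1', hf', hx0, hx1, hx2, hy0, hy1, hz, e0, e2, e3, e1, hs⟩ := h
  have hγ0 : 0 ≤ γ := by linarith
  have hβ : -3 ≤ β := by linarith
  have i1 : 0 ≤ (p - 1) * (β + 3) := by apply mul_nonneg <;> linarith
  have hγ : γ = 0 := by
    by_contra hc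
    have hc' : 1 ≤ γ := by omega
    have i2 : 0 ≤ (p ^ 2 - 1) * (γ - 1) := by
      apply mul_nonneg
      · nlinarith
      · linarith
    nlinarith
  subst hγ
  refine ⟨?_, rfl⟩
  have z1 : a3 = 0 := by linarith
  have z2 : c2 = 0 := by linarith
  have z3 : d1 = 0 := by linarith
  have z4 : f = 0 := by linarith
  have z5 : x2 = 0 := by linarith
  have z6 : y1 = 0 := by linarith
  have z7 : z = 0 := by linarith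
  subst z1 z2 z3 z4 z5 z6 z7
  have hβ1 : β ≤ 0 := by
    by_contra hc
    have hc' : 1 ≤ β := by omega
    have i3 : (2 * p - 2) * 1 ≤ (2 * p - 2) * β := by
      apply mul_le_mul_of_nonneg_left <;> linarith
    linarith
  have hβ2 : 0 ≤ β := by
    by_contra hc
    have hc' : β ≤ -1 := by omega
    have i3 : (2 * p) * β ≤ (2 * p) * (-1) := by
      apply mul_le_mul_of_nonneg_left <;> linarith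
    linarith
  linarith

theorem kappa_int (h : Dig p 1 w1 2 s a0 a1 a2 a3 c0 c1 c2 d0 d1 f x0 x1 x2 y0 y1 z β γ)
    (hp : 11 ≤ p) (h1 : 2 * w1 - s = 3) : Tail a3 c2 d1 f x2 y1 z ∧
    ((a0 = 0 ∧ a1 = 1 ∧ a2 = 0 ∧ c0 = 1 ∧ c1 = 1 ∧ d0 = 0 ∧ x0 = w1 - 4 ∧ x1 = 0 ∧ y0 = 1) ∨
     (a0 = 0 ∧ a1 = 1 ∧ a2 = 0 ∧ c0 = 0 ∧ c1 = 1 ∧ d0 = 1 ∧ x0 = w1 - 3 ∧ x1 = 0 ∧ y0 = 0)) := by
  obtain ⟨rfl, rfl⟩ := h.zero hp (by linarith) (by linarith) (by norm_num)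
  have ht := h.tail rfl
  refine ⟨ht, ?_⟩
  have he := h.eq
  obtain ⟨ha0, ha1, ha2, ha3, hc0, hc1, hc2, hd0, hd1, hf, ha0', ha1', ha2', ha3', hc0', hc1',
    hc2', hd0', hd1', hf', hx0, hx1, hx2, hy0, hy1, hz, e0, e2, e3, e1, hs⟩ := h
  obtain ⟨rfl, rfl, rfl, rfl, rfl, rfl, rfl⟩ := ht
  clear hs
  have he' : a0 + a2 + 3 + 2 * x1 = a1 + c0 + c1 + d0 := by linarith
  have e1' : x0 = w1 - (a1 + c0 + c1 + d0 + y0) := by linarith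
  clear he e1
  have f1 : c0 = 1 ∨ c0 = 0 := by omega
  rcases f1 with rfl | rfl
  · left; refine ⟨?_, ?_, ?_, rfl, ?_, ?_, ?_, ?_, ?_⟩ <;> omega
  · right; refine ⟨?_, ?_, ?_, rfl, ?_, ?_, ?_, ?_, ?_⟩ <;> omega

theorem gamma_int (h : Dig p 0 w1 3 s a0 a1 a2 a3 c0 c1 c2 d0 d1 f x0 x1 x2 y0 y1 z β γ)
    (hp : 11 ≤ p) (h1 : 2 * w1 - s = 1) : Tail a3 c2 d1 f x2 y1 z ∧
    ((a0 = 0 ∧ a1 = 1 ∧ a2 = 0 ∧ c0 = 0 ∧ c1 = 0 ∧ d0 = 0 ∧ x0 = w1 - 4 ∧ x1 = 0 ∧ y0 = 3) ∨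
     (a0 = 0 ∧ a1 = 0 ∧ a2 = 0 ∧ c0 = 0 ∧ c1 = 1 ∧ d0 = 0 ∧ x0 = w1 - 3 ∧ x1 = 0 ∧ y0 = 2) ∨
     (a0 = 0 ∧ a1 = 1 ∧ a2 = 1 ∧ c0 = 0 ∧ c1 = 1 ∧ d0 = 0 ∧ x0 = w1 - 3 ∧ x1 = 0 ∧ y0 = 1)) := by
  obtain ⟨rfl, rfl⟩ := h.zero hp (by linarith) (by linarith) (by norm_num)
  have ht := h.tail rfl
  refine ⟨ht, ?_⟩
  have he := h.eq
  obtain ⟨ha0, ha1, ha2, ha3, hc0, hc1, hc2, hd0, hd1, hf, ha0', ha1', ha2', ha3', hc0', hc1',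
    hc2', hd0', hd1', hf', hx0, hx1, hx2, hy0, hy1, hz, e0, e2, e3, e1, hs⟩ := h
  obtain ⟨rfl, rfl, rfl, rfl, rfl, rfl, rfl⟩ := ht
  clear hs
  have g1 : a0 = 0 := by linarith
  have g2 : c0 = 0 := by linarith
  have g3 : d0 = 0 := by linarith
  subst g1 g2 g3
  have he' : a2 + 1 + 2 * x1 = a1 + c1 := by linarith
  have e1' : x0 = w1 - (a1 + c1 + y0) := by linarith
  clear he e1
  have f1 : (a1 = 1 ∧ c1 = 0) ∨ (a1 = 0 ∧ c1 = 1) ∨ (a1 = 1 ∧ c1 = 1) := by omega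
  rcases f1 with ⟨rfl, rfl⟩ | ⟨rfl, rfl⟩ | ⟨rfl, rfl⟩
  · left; refine ⟨rfl, rfl, ?_, rfl, rfl, rfl, ?_, ?_, ?_⟩ <;> omega
  · right; left; refine ⟨rfl, rfl, ?_, rfl, rfl, rfl, ?_, ?_, ?_⟩ <;> omega
  · right; right; refine ⟨rfl, rfl, ?_, rfl, rfl, rfl, ?_, ?_, ?_⟩ <;> omega

theorem beta_int (h : Dig p 2 w1 2 s a0 a1 a2 a3 c0 c1 c2 d0 d1 f x0 x1 x2 y0 y1 z β γ)
    (hp : 11 ≤ p) (h1 : 2 * w1 - s = 2) : Tail a3 c2 d1 f x2 y1 z ∧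
    ((a0 = 1 ∧ a1 = 1 ∧ a2 = 0 ∧ c0 = 1 ∧ c1 = 1 ∧ d0 = 0 ∧ x0 = w1 - 4 ∧ x1 = 0 ∧ y0 = 1) ∨
    (a0 = 1 ∧ a1 = 1 ∧ a2 = 0 ∧ c0 = 0 ∧ c1 = 1 ∧ d0 = 1 ∧ x0 = w1 - 3 ∧ x1 = 0 ∧ y0 = 0) ∨
    (a0 = 0 ∧ a1 = 1 ∧ a2 = 1 ∧ c0 = 1 ∧ c1 = 0 ∧ d0 = 1 ∧ x0 = w1 - 3 ∧ x1 = 0 ∧ y0 = 0) ∨
    (a0 = 0 ∧ a1 = 0 ∧ a2 = 0 ∧ c0 = 1 ∧ c1 = 0 ∧ d0 = 1 ∧ x0 = w1 - 3 ∧ x1 = 0 ∧ y0 = 1)) := by
  obtain ⟨rfl, rfl⟩ := h.zero hp (by linarith) (by linarith) (by norm_num)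
  have ht := h.tail rfl
  refine ⟨ht, ?_⟩
  have he := h.eq
  obtain ⟨ha0, ha1, ha2, ha3, hc0, hc1, hc2, hd0, hd1, hf, ha0', ha1', ha2', ha3', hc0', hc1',
    hc2', hd0', hd1', hf', hx0, hx1, hx2, hy0, hy1, hz, e0, e2, e3, e1, hs⟩ := h
  obtain ⟨rfl, rfl, rfl, rfl, rfl, rfl, rfl⟩ := ht
  clear hs
  have he' : a0 + a2 + 2 + 2 * x1 = a1 + c0 + c1 + d0 := by linarith
  have e1' : x0 = w1 - (a1 + c0 + c1 + d0 + y0) := by linarith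
  clear he e1
  have hc : (a0 = 1 ∧ c0 = 1 ∧ d0 = 0) ∨ (a0 = 1 ∧ c0 = 0 ∧ d0 = 1) ∨
    (a0 = 0 ∧ c0 = 1 ∧ d0 = 1) := by omega
  rcases hc with ⟨rfl, rfl, rfl⟩ | ⟨rfl, rfl, rfl⟩ | ⟨rfl, rfl, rfl⟩
  · left
    refine ⟨rfl, ?_, ?_, rfl, ?_, rfl, ?_, ?_, ?_⟩ <;> omega
  · right; left
    refine ⟨rfl, ?_, ?_, rfl, ?_, rfl, ?_, ?_, ?_⟩ <;> omega
  · right; right
    have e1 : c1 = 0 := by omega
    have e2 : a1 = 0 ∨ a1 = 1 := by omega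
    rcases e2 with rfl | rfl
    · right
      refine ⟨rfl, rfl, ?_, rfl, e1, rfl, ?_, ?_, ?_⟩ <;> omega
    · left
      refine ⟨rfl, rfl, ?_, rfl, e1, rfl, ?_, ?_, ?_⟩ <;> omega

end Vale.Agent.P257.H327
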