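import Vale.Agent.P257.H327.EnumCore
import Vale.Agent.P257.H327.Mon

open Finset

namespace Vale.Agent.P257.H327

/-- The case `r1 = r2 = r3 = 1` of the enumeration in weight `p^4+p^3+p^2+p+2`. -/
theorem Y_int (p : ℤ) (hp : 11 ≤ p)
    (a0 a1 a2 a3 c0 c1 c2 d0 d1 f x0 x1 x2 y0 y1 z : ℤ)
    (ha0 : 0 ≤ a0) (ha1 : 0 ≤ a1) (ha2 : 0 ≤ a2) (_ha3 : 0 ≤ a3) (hc0 : 0 ≤ c0) (hc1 : 0 ≤ c1)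
    (_hc2 : 0 ≤ c2) (hd0 : 0 ≤ d0) (_hd1 : 0 ≤ d1) (hf : 0 ≤ f)
    (_ha0' : a0 ≤ 1) (_ha1' : a1 ≤ 1) (_ha2' : a2 ≤ 1) (ha3' : a3 ≤ 1) (_hc0' : c0 ≤ 1)
    (_hc1' : c1 ≤ 1) (hc2' : c2 ≤ 1) (_hd0' : d0 ≤ 1) (hd1' : d1 ≤ 1) (hf' : f ≤ 1)
    (hx0 : 0 ≤ x0) (hx1 : 0 ≤ x1) (hx2 : 0 ≤ x2) (hy0 : 0 ≤ y0) (hy1 : 0 ≤ y1) (_hz : 0 ≤ z)
    (e0 : a0 + c0 + d0 + f = 2)
    (e1 : a1 + c0 + c1 + d0 + d1 + f + x0 + y0 + z = 1 + p)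
    (e2 : a2 + c1 + c2 + d0 + d1 + f + x1 + y0 + y1 + z = p)
    (e3 : a3 + c2 + d1 + f + x2 + y1 + z = p)
    (hs : a0+a1+a2+a3+c0+c1+c2+d0+d1+f + 2*(x0+x1+x2+y0+y1+z) = 2*p-1) :
    (x0 = 0 ∧ x1 = 0 ∧ x2 = 0 ∧ y0 = 0 ∧ y1 = 0 ∧ f = 1 ∧ d1 = 1 ∧ a0 = 0) ∧
    ((a1 = 1 ∧ a2 = 0 ∧ a3 = 1 ∧ c0 = 1 ∧ c1 = 1 ∧ c2 = 1 ∧ d0 = 0 ∧ z = p - 4) ∨
     (a1 = 1 ∧ a2 = 0 ∧ a3 = 0 ∧ c0 = 1 ∧ c1 = 0 ∧ c2 = 1 ∧ d0 = 0 ∧ z = p - 3) ∨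
     (a1 = 1 ∧ a2 = 0 ∧ a3 = 1 ∧ c0 = 0 ∧ c1 = 0 ∧ c2 = 0 ∧ d0 = 1 ∧ z = p - 3) ∨
     (a1 = 0 ∧ a2 = 0 ∧ a3 = 1 ∧ c0 = 1 ∧ c1 = 1 ∧ c2 = 0 ∧ d0 = 0 ∧ z = p - 3) ∨
     (a1 = 0 ∧ a2 = 0 ∧ a3 = 0 ∧ c0 = 1 ∧ c1 = 0 ∧ c2 = 0 ∧ d0 = 0 ∧ z = p - 2)) := by
  have k1 : a3 + c2 + d1 + f = 1 + a0 + a1 + a2 + c0 + c1 + d0 + 2 * (x0 + x1 + y0) := by
    linarith
  have f1 : f = 1 := by
    rcases (by omega : f = 0 ∨ f = 1) with rfl | rfl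
    · exfalso
      have : d1 = 1 := by linarith
      have : a3 = 1 := by linarith
      have : c2 = 1 := by linarith
      linarith
    · rfl
  subst f1
  have x0' : x0 = 0 := by linarith
  have x1' : x1 = 0 := by linarith
  have y0' : y0 = 0 := by linarith
  subst x0' x1' y0'
  clear hs
  have d1' : d1 = 1 := by omega
  subst d1'
  have k2 : a3 + c2 = a1 + a2 + c1 := by linarith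
  have hz : z = p - 1 - a1 - c0 - c1 - d0 := by linarith
  have hy : y1 = a1 + c0 - 1 - a2 - c2 := by linarith
  have hx : x2 = d0 - a1 + c2 := by linarith
  clear e1 e2 e3 k1
  have hc : (a0 = 1 ∧ c0 = 0 ∧ d0 = 0) ∨ (a0 = 0 ∧ c0 = 1 ∧ d0 = 0) ∨
    (a0 = 0 ∧ c0 = 0 ∧ d0 = 1) := by omega
  rcases hc with ⟨rfl, rfl, rfl⟩ | ⟨rfl, rfl, rfl⟩ | ⟨rfl, rfl, rfl⟩
  · exfalso; omega
  · have g1 : a1 = 0 ∨ a1 = 1 := by omega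
    rcases g1 with rfl | rfl
    · have g2 : a2 = 0 := by omega
      have g3 : c2 = 0 := by omega
      have g4 : c1 = 0 ∨ c1 = 1 := by omega
      rcases g4 with rfl | rfl
      · refine ⟨⟨rfl, rfl, ?_, rfl, ?_, rfl, rfl, rfl⟩, Or.inr (Or.inr (Or.inr (Or.inr
          ⟨rfl, g2, ?_, rfl, rfl, g3, rfl, ?_⟩)))⟩ <;> omega
      · refine ⟨⟨rfl, rfl, ?_, rfl, ?_, rfl, rfl, rfl⟩, Or.inr (Or.inr (Or.inr (Or.inl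
          ⟨rfl, g2, ?_, rfl, rfl, g3, rfl, ?_⟩)))⟩ <;> omega
    · have g2 : a2 = 0 := by omega
      have g3 : c2 = 1 := by omega
      have g4 : c1 = 0 ∨ c1 = 1 := by omega
      rcases g4 with rfl | rfl
      · refine ⟨⟨rfl, rfl, ?_, rfl, ?_, rfl, rfl, rfl⟩, Or.inr (Or.inl
          ⟨rfl, g2, ?_, rfl, rfl, g3, rfl, ?_⟩)⟩ <;> omega
      · refine ⟨⟨rfl, rfl, ?_, rfl, ?_, rfl, rfl, rfl⟩, Or.inl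
          ⟨rfl, g2, ?_, rfl, rfl, g3, rfl, ?_⟩⟩ <;> omega
  · have g1 : a1 = 1 := by omega
    have g2 : a2 = 0 := by omega
    have g3 : c2 = 0 := by omega
    have g4 : c1 = 0 := by omega
    subst g1 g2 g3 g4
    refine ⟨⟨rfl, rfl, ?_, rfl, ?_, rfl, rfl, rfl⟩, Or.inr (Or.inr (Or.inl
          ⟨rfl, rfl, ?_, rfl, rfl, rfl, rfl, ?_⟩))⟩ <;> omega

end Vale.Agent.P257.H327
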