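import Vale.Agent.P257.H327.Enum8

/-!
The cases of the enumeration in weight `p^4+p^3+p^2+p+2`, filtration `2p-1`, where not all carries
are `1`: impossible.
-/

namespace Vale.Agent.P257.H327

theorem Y_red000 (p : ℤ) (hp : 11 ≤ p)
    (a0 a1 a2 a3 a4 c0 c1 c2 c3 d0 d1 d2 f0 f1 g x0 x1 x2 x3 y0 y1 y2 z0 z1 u : ℤ)
    (ha0 : 0 ≤ a0) (ha0' : a0 ≤ 1) (ha1 : 0 ≤ a1) (ha1' : a1 ≤ 1) (ha2 : 0 ≤ a2) (ha2' : a2 ≤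
    1) (ha3 : 0 ≤ a3) (ha3' : a3 ≤ 1) (ha4 : 0 ≤ a4) (ha4' : a4 ≤ 1) (hc0 : 0 ≤ c0) (hc0' : c0
    ≤ 1) (hc1 : 0 ≤ c1) (hc1' : c1 ≤ 1) (hc2 : 0 ≤ c2) (hc2' : c2 ≤ 1) (hc3 : 0 ≤ c3) (hc3' :
    c3 ≤ 1) (hd0 : 0 ≤ d0) (hd0' : d0 ≤ 1) (hd1 : 0 ≤ d1) (hd1' : d1 ≤ 1) (hd2 : 0 ≤ d2) (hd2'
    : d2 ≤ 1) (hf0 : 0 ≤ f0) (hf0' : f0 ≤ 1) (hf1 : 0 ≤ f1) (hf1' : f1 ≤ 1) (hg : 0 ≤ g) (hg' :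
    g ≤ 1) (hx0 : 0 ≤ x0) (hx1 : 0 ≤ x1) (hx2 : 0 ≤ x2) (hx3 : 0 ≤ x3) (hy0 : 0 ≤ y0) (hy1 : 0
    ≤ y1) (hy2 : 0 ≤ y2) (hz0 : 0 ≤ z0) (hz1 : 0 ≤ z1) (hu : 0 ≤ u)
    (e0 : a0 + c0 + d0 + f0 + g = 2)
    (e1 : a1 + c0 + c1 + d0 + d1 + f0 + f1 + g + (x0 + y0 + z0 + u) = 1 + p * 0)
    (e2 : a2 + c1 + c2 + d0 + d1 + d2 + f0 + f1 + g + (x1 + y0 + y1 + z0 + z1 + u) =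
      1 - 0 + p * 0)
    (e3 : a3 + c2 + c3 + d1 + d2 + f0 + f1 + g + (x2 + y1 + y2 + z0 + z1 + u) =
      1 - 0 + p * 0)
    (e4 : a4 + c3 + d2 + f1 + g + (x3 + y2 + z1 + u) = 1 - 0)
    (hs : a0 + a1 + a2 + a3 + a4 + c0 + c1 + c2 + c3 + d0 + d1 + d2 + f0 + f1 + g +
      2 * (x0 + x1 + x2 + x3 + y0 + y1 + y2 + z0 + z1 + u) = 2 * p - 1) : False := by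
  linarith

theorem Y_red001 (p : ℤ) (hp : 11 ≤ p)
    (a0 a1 a2 a3 a4 c0 c1 c2 c3 d0 d1 d2 f0 f1 g x0 x1 x2 x3 y0 y1 y2 z0 z1 u : ℤ)
    (ha0 : 0 ≤ a0) (ha0' : a0 ≤ 1) (ha1 : 0 ≤ a1) (ha1' : a1 ≤ 1) (ha2 : 0 ≤ a2) (ha2' : a2 ≤
    1) (ha3 : 0 ≤ a3) (ha3' : a3 ≤ 1) (ha4 : 0 ≤ a4) (ha4' : a4 ≤ 1) (hc0 : 0 ≤ c0) (hc0' : c0
    ≤ 1) (hc1 : 0 ≤ c1) (hc1' : c1 ≤ 1) (hc2 : 0 ≤ c2) (hc2' : c2 ≤ 1) (hc3 : 0 ≤ c3) (hc3' :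
    c3 ≤ 1) (hd0 : 0 ≤ d0) (hd0' : d0 ≤ 1) (hd1 : 0 ≤ d1) (hd1' : d1 ≤ 1) (hd2 : 0 ≤ d2) (hd2'
    : d2 ≤ 1) (hf0 : 0 ≤ f0) (hf0' : f0 ≤ 1) (hf1 : 0 ≤ f1) (hf1' : f1 ≤ 1) (hg : 0 ≤ g) (hg' :
    g ≤ 1) (hx0 : 0 ≤ x0) (hx1 : 0 ≤ x1) (hx2 : 0 ≤ x2) (hx3 : 0 ≤ x3) (hy0 : 0 ≤ y0) (hy1 : 0
    ≤ y1) (hy2 : 0 ≤ y2) (hz0 : 0 ≤ z0) (hz1 : 0 ≤ z1) (hu : 0 ≤ u)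
    (e0 : a0 + c0 + d0 + f0 + g = 2)
    (e1 : a1 + c0 + c1 + d0 + d1 + f0 + f1 + g + (x0 + y0 + z0 + u) = 1 + p * 0)
    (e2 : a2 + c1 + c2 + d0 + d1 + d2 + f0 + f1 + g + (x1 + y0 + y1 + z0 + z1 + u) =
      1 - 0 + p * 0)
    (e3 : a3 + c2 + c3 + d1 + d2 + f0 + f1 + g + (x2 + y1 + y2 + z0 + z1 + u) =
      1 - 0 + p * 1)
    (e4 : a4 + c3 + d2 + f1 + g + (x3 + y2 + z1 + u) = 1 - 1)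
    (hs : a0 + a1 + a2 + a3 + a4 + c0 + c1 + c2 + c3 + d0 + d1 + d2 + f0 + f1 + g +
      2 * (x0 + x1 + x2 + x3 + y0 + y1 + y2 + z0 + z1 + u) = 2 * p - 1) : False := by
  linarith

theorem Y_red010 (p : ℤ) (hp : 11 ≤ p)
    (a0 a1 a2 a3 a4 c0 c1 c2 c3 d0 d1 d2 f0 f1 g x0 x1 x2 x3 y0 y1 y2 z0 z1 u : ℤ)
    (ha0 : 0 ≤ a0) (ha0' : a0 ≤ 1) (ha1 : 0 ≤ a1) (ha1' : a1 ≤ 1) (ha2 : 0 ≤ a2) (ha2' : a2 ≤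
    1) (ha3 : 0 ≤ a3) (ha3' : a3 ≤ 1) (ha4 : 0 ≤ a4) (ha4' : a4 ≤ 1) (hc0 : 0 ≤ c0) (hc0' : c0
    ≤ 1) (hc1 : 0 ≤ c1) (hc1' : c1 ≤ 1) (hc2 : 0 ≤ c2) (hc2' : c2 ≤ 1) (hc3 : 0 ≤ c3) (hc3' :
    c3 ≤ 1) (hd0 : 0 ≤ d0) (hd0' : d0 ≤ 1) (hd1 : 0 ≤ d1) (hd1' : d1 ≤ 1) (hd2 : 0 ≤ d2) (hd2'
    : d2 ≤ 1) (hf0 : 0 ≤ f0) (hf0' : f0 ≤ 1) (hf1 : 0 ≤ f1) (hf1' : f1 ≤ 1) (hg : 0 ≤ g) (hg' :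
    g ≤ 1) (hx0 : 0 ≤ x0) (hx1 : 0 ≤ x1) (hx2 : 0 ≤ x2) (hx3 : 0 ≤ x3) (hy0 : 0 ≤ y0) (hy1 : 0
    ≤ y1) (hy2 : 0 ≤ y2) (hz0 : 0 ≤ z0) (hz1 : 0 ≤ z1) (hu : 0 ≤ u)
    (e0 : a0 + c0 + d0 + f0 + g = 2)
    (e1 : a1 + c0 + c1 + d0 + d1 + f0 + f1 + g + (x0 + y0 + z0 + u) = 1 + p * 0)
    (e2 : a2 + c1 + c2 + d0 + d1 + d2 + f0 + f1 + g + (x1 + y0 + y1 + z0 + z1 + u) =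
      1 - 0 + p * 1)
    (e3 : a3 + c2 + c3 + d1 + d2 + f0 + f1 + g + (x2 + y1 + y2 + z0 + z1 + u) =
      1 - 1 + p * 0)
    (e4 : a4 + c3 + d2 + f1 + g + (x3 + y2 + z1 + u) = 1 - 0)
    (hs : a0 + a1 + a2 + a3 + a4 + c0 + c1 + c2 + c3 + d0 + d1 + d2 + f0 + f1 + g +
      2 * (x0 + x1 + x2 + x3 + y0 + y1 + y2 + z0 + z1 + u) = 2 * p - 1) : False := by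
  linarith

theorem Y_red011 (p : ℤ) (hp : 11 ≤ p)
    (a0 a1 a2 a3 a4 c0 c1 c2 c3 d0 d1 d2 f0 f1 g x0 x1 x2 x3 y0 y1 y2 z0 z1 u : ℤ)
    (ha0 : 0 ≤ a0) (ha0' : a0 ≤ 1) (ha1 : 0 ≤ a1) (ha1' : a1 ≤ 1) (ha2 : 0 ≤ a2) (ha2' : a2 ≤
    1) (ha3 : 0 ≤ a3) (ha3' : a3 ≤ 1) (ha4 : 0 ≤ a4) (ha4' : a4 ≤ 1) (hc0 : 0 ≤ c0) (hc0' : c0
    ≤ 1) (hc1 : 0 ≤ c1) (hc1' : c1 ≤ 1) (hc2 : 0 ≤ c2) (hc2' : c2 ≤ 1) (hc3 : 0 ≤ c3) (hc3' :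
    c3 ≤ 1) (hd0 : 0 ≤ d0) (hd0' : d0 ≤ 1) (hd1 : 0 ≤ d1) (hd1' : d1 ≤ 1) (hd2 : 0 ≤ d2) (hd2'
    : d2 ≤ 1) (hf0 : 0 ≤ f0) (hf0' : f0 ≤ 1) (hf1 : 0 ≤ f1) (hf1' : f1 ≤ 1) (hg : 0 ≤ g) (hg' :
    g ≤ 1) (hx0 : 0 ≤ x0) (hx1 : 0 ≤ x1) (hx2 : 0 ≤ x2) (hx3 : 0 ≤ x3) (hy0 : 0 ≤ y0) (hy1 : 0
    ≤ y1) (hy2 : 0 ≤ y2) (hz0 : 0 ≤ z0) (hz1 : 0 ≤ z1) (hu : 0 ≤ u)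
    (e0 : a0 + c0 + d0 + f0 + g = 2)
    (e1 : a1 + c0 + c1 + d0 + d1 + f0 + f1 + g + (x0 + y0 + z0 + u) = 1 + p * 0)
    (e2 : a2 + c1 + c2 + d0 + d1 + d2 + f0 + f1 + g + (x1 + y0 + y1 + z0 + z1 + u) =
      1 - 0 + p * 1)
    (e3 : a3 + c2 + c3 + d1 + d2 + f0 + f1 + g + (x2 + y1 + y2 + z0 + z1 + u) =
      1 - 1 + p * 1)
    (e4 : a4 + c3 + d2 + f1 + g + (x3 + y2 + z1 + u) = 1 - 1)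
    (hs : a0 + a1 + a2 + a3 + a4 + c0 + c1 + c2 + c3 + d0 + d1 + d2 + f0 + f1 + g +
      2 * (x0 + x1 + x2 + x3 + y0 + y1 + y2 + z0 + z1 + u) = 2 * p - 1) : False := by
  linarith

theorem Y_red100 (p : ℤ) (hp : 11 ≤ p)
    (a0 a1 a2 a3 a4 c0 c1 c2 c3 d0 d1 d2 f0 f1 g x0 x1 x2 x3 y0 y1 y2 z0 z1 u : ℤ)
    (ha0 : 0 ≤ a0) (ha0' : a0 ≤ 1) (ha1 : 0 ≤ a1) (ha1' : a1 ≤ 1) (ha2 : 0 ≤ a2) (ha2' : a2 ≤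
    1) (ha3 : 0 ≤ a3) (ha3' : a3 ≤ 1) (ha4 : 0 ≤ a4) (ha4' : a4 ≤ 1) (hc0 : 0 ≤ c0) (hc0' : c0
    ≤ 1) (hc1 : 0 ≤ c1) (hc1' : c1 ≤ 1) (hc2 : 0 ≤ c2) (hc2' : c2 ≤ 1) (hc3 : 0 ≤ c3) (hc3' :
    c3 ≤ 1) (hd0 : 0 ≤ d0) (hd0' : d0 ≤ 1) (hd1 : 0 ≤ d1) (hd1' : d1 ≤ 1) (hd2 : 0 ≤ d2) (hd2'
    : d2 ≤ 1) (hf0 : 0 ≤ f0) (hf0' : f0 ≤ 1) (hf1 : 0 ≤ f1) (hf1' : f1 ≤ 1) (hg : 0 ≤ g) (hg' :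
    g ≤ 1) (hx0 : 0 ≤ x0) (hx1 : 0 ≤ x1) (hx2 : 0 ≤ x2) (hx3 : 0 ≤ x3) (hy0 : 0 ≤ y0) (hy1 : 0
    ≤ y1) (hy2 : 0 ≤ y2) (hz0 : 0 ≤ z0) (hz1 : 0 ≤ z1) (hu : 0 ≤ u)
    (e0 : a0 + c0 + d0 + f0 + g = 2)
    (e1 : a1 + c0 + c1 + d0 + d1 + f0 + f1 + g + (x0 + y0 + z0 + u) = 1 + p * 1)
    (e2 : a2 + c1 + c2 + d0 + d1 + d2 + f0 + f1 + g + (x1 + y0 + y1 + z0 + z1 + u) =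
      1 - 1 + p * 0)
    (e3 : a3 + c2 + c3 + d1 + d2 + f0 + f1 + g + (x2 + y1 + y2 + z0 + z1 + u) =
      1 - 0 + p * 0)
    (e4 : a4 + c3 + d2 + f1 + g + (x3 + y2 + z1 + u) = 1 - 0)
    (hs : a0 + a1 + a2 + a3 + a4 + c0 + c1 + c2 + c3 + d0 + d1 + d2 + f0 + f1 + g +
      2 * (x0 + x1 + x2 + x3 + y0 + y1 + y2 + z0 + z1 + u) = 2 * p - 1) : False := by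
  linarith

theorem Y_red101 (p : ℤ) (hp : 11 ≤ p)
    (a0 a1 a2 a3 a4 c0 c1 c2 c3 d0 d1 d2 f0 f1 g x0 x1 x2 x3 y0 y1 y2 z0 z1 u : ℤ)
    (ha0 : 0 ≤ a0) (ha0' : a0 ≤ 1) (ha1 : 0 ≤ a1) (ha1' : a1 ≤ 1) (ha2 : 0 ≤ a2) (ha2' : a2 ≤
    1) (ha3 : 0 ≤ a3) (ha3' : a3 ≤ 1) (ha4 : 0 ≤ a4) (ha4' : a4 ≤ 1) (hc0 : 0 ≤ c0) (hc0' : c0
    ≤ 1) (hc1 : 0 ≤ c1) (hc1' : c1 ≤ 1) (hc2 : 0 ≤ c2) (hc2' : c2 ≤ 1) (hc3 : 0 ≤ c3) (hc3' :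
    c3 ≤ 1) (hd0 : 0 ≤ d0) (hd0' : d0 ≤ 1) (hd1 : 0 ≤ d1) (hd1' : d1 ≤ 1) (hd2 : 0 ≤ d2) (hd2'
    : d2 ≤ 1) (hf0 : 0 ≤ f0) (hf0' : f0 ≤ 1) (hf1 : 0 ≤ f1) (hf1' : f1 ≤ 1) (hg : 0 ≤ g) (hg' :
    g ≤ 1) (hx0 : 0 ≤ x0) (hx1 : 0 ≤ x1) (hx2 : 0 ≤ x2) (hx3 : 0 ≤ x3) (hy0 : 0 ≤ y0) (hy1 : 0
    ≤ y1) (hy2 : 0 ≤ y2) (hz0 : 0 ≤ z0) (hz1 : 0 ≤ z1) (hu : 0 ≤ u)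
    (e0 : a0 + c0 + d0 + f0 + g = 2)
    (e1 : a1 + c0 + c1 + d0 + d1 + f0 + f1 + g + (x0 + y0 + z0 + u) = 1 + p * 1)
    (e2 : a2 + c1 + c2 + d0 + d1 + d2 + f0 + f1 + g + (x1 + y0 + y1 + z0 + z1 + u) =
      1 - 1 + p * 0)
    (e3 : a3 + c2 + c3 + d1 + d2 + f0 + f1 + g + (x2 + y1 + y2 + z0 + z1 + u) =
      1 - 0 + p * 1)
    (e4 : a4 + c3 + d2 + f1 + g + (x3 + y2 + z1 + u) = 1 - 1)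
    (hs : a0 + a1 + a2 + a3 + a4 + c0 + c1 + c2 + c3 + d0 + d1 + d2 + f0 + f1 + g +
      2 * (x0 + x1 + x2 + x3 + y0 + y1 + y2 + z0 + z1 + u) = 2 * p - 1) : False := by
  linarith

theorem Y_red110 (p : ℤ) (hp : 11 ≤ p)
    (a0 a1 a2 a3 a4 c0 c1 c2 c3 d0 d1 d2 f0 f1 g x0 x1 x2 x3 y0 y1 y2 z0 z1 u : ℤ)
    (ha0 : 0 ≤ a0) (ha0' : a0 ≤ 1) (ha1 : 0 ≤ a1) (ha1' : a1 ≤ 1) (ha2 : 0 ≤ a2) (ha2' : a2 ≤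
    1) (ha3 : 0 ≤ a3) (ha3' : a3 ≤ 1) (ha4 : 0 ≤ a4) (ha4' : a4 ≤ 1) (hc0 : 0 ≤ c0) (hc0' : c0
    ≤ 1) (hc1 : 0 ≤ c1) (hc1' : c1 ≤ 1) (hc2 : 0 ≤ c2) (hc2' : c2 ≤ 1) (hc3 : 0 ≤ c3) (hc3' :
    c3 ≤ 1) (hd0 : 0 ≤ d0) (hd0' : d0 ≤ 1) (hd1 : 0 ≤ d1) (hd1' : d1 ≤ 1) (hd2 : 0 ≤ d2) (hd2'
    : d2 ≤ 1) (hf0 : 0 ≤ f0) (hf0' : f0 ≤ 1) (hf1 : 0 ≤ f1) (hf1' : f1 ≤ 1) (hg : 0 ≤ g) (hg' :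
    g ≤ 1) (hx0 : 0 ≤ x0) (hx1 : 0 ≤ x1) (hx2 : 0 ≤ x2) (hx3 : 0 ≤ x3) (hy0 : 0 ≤ y0) (hy1 : 0
    ≤ y1) (hy2 : 0 ≤ y2) (hz0 : 0 ≤ z0) (hz1 : 0 ≤ z1) (hu : 0 ≤ u)
    (e0 : a0 + c0 + d0 + f0 + g = 2)
    (e1 : a1 + c0 + c1 + d0 + d1 + f0 + f1 + g + (x0 + y0 + z0 + u) = 1 + p * 1)
    (e2 : a2 + c1 + c2 + d0 + d1 + d2 + f0 + f1 + g + (x1 + y0 + y1 + z0 + z1 + u) =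
      1 - 1 + p * 1)
    (e3 : a3 + c2 + c3 + d1 + d2 + f0 + f1 + g + (x2 + y1 + y2 + z0 + z1 + u) =
      1 - 1 + p * 0)
    (e4 : a4 + c3 + d2 + f1 + g + (x3 + y2 + z1 + u) = 1 - 0)
    (hs : a0 + a1 + a2 + a3 + a4 + c0 + c1 + c2 + c3 + d0 + d1 + d2 + f0 + f1 + g +
      2 * (x0 + x1 + x2 + x3 + y0 + y1 + y2 + z0 + z1 + u) = 2 * p - 1) : False := by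
  linarith

end Vale.Agent.P257.H327
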