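import Vale.Agent.P257.H327.EnumCore

namespace Vale.Agent.P257.H327

/-- Case `k = H0 - 1` small, top digit carried by a factor (`H3 + B2 = 1`): impossible. -/
theorem mainA1 (p k : ℤ) (hp : 11 ≤ p) (hk : 1 ≤ k) (hk3 : k ≤ 3)
    (a0 a1 a2 a3 c0 c1 c2 d0 d1 f x0 x1 x2 y0 y1 z : ℤ)
    (ha0 : 0 ≤ a0) (ha1 : 0 ≤ a1) (ha2 : 0 ≤ a2) (ha3 : 0 ≤ a3) (hc0 : 0 ≤ c0) (hc1 : 0 ≤ c1)
    (hc2 : 0 ≤ c2) (hd0 : 0 ≤ d0) (hd1 : 0 ≤ d1) (hf : 0 ≤ f)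
    (ha0' : a0 ≤ 1) (ha1' : a1 ≤ 1) (ha2' : a2 ≤ 1) (ha3' : a3 ≤ 1) (hc0' : c0 ≤ 1)
    (hc1' : c1 ≤ 1) (hc2' : c2 ≤ 1) (hd0' : d0 ≤ 1) (hd1' : d1 ≤ 1) (hf' : f ≤ 1)
    (hx0 : 0 ≤ x0) (hx1 : 0 ≤ x1) (hx2 : 0 ≤ x2) (hy0 : 0 ≤ y0) (hy1 : 0 ≤ y1) (hz : 0 ≤ z)
    (hH0 : a0 + c0 + d0 + f = 1 + k)
    (htop : a3 + c2 + d1 + f + x2 + y1 + z = 1)
    (hmid : (a1 + c0 + c1 + d0 + d1 + f + x0 + y0 + z - 1) +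
      p * (a2 + c1 + c2 + d0 + d1 + f + x1 + y0 + y1 + z - 1) = 0)
    (hs : a0+a1+a2+a3+c0+c1+c2+d0+d1+f + 2*(x0+x1+x2+y0+y1+z) + 2*k = 2*k*p+1) : False := by
  have hB : a2 + c1 + c2 + d0 + d1 + f + x1 + y0 + y1 + z ≤ 1 := by nlinarith
  have hB0 : 0 ≤ a2 + c1 + c2 + d0 + d1 + f + x1 + y0 + y1 + z := by linarith
  have hcase : a2 + c1 + c2 + d0 + d1 + f + x1 + y0 + y1 + z = 0 ∨
      a2 + c1 + c2 + d0 + d1 + f + x1 + y0 + y1 + z = 1 := by omega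
  have hkc : k = 1 ∨ k = 2 ∨ k = 3 := by omega
  rcases hcase with h | h
  · rw [h] at hmid
    rcases hkc with rfl | rfl | rfl <;> omega
  · rw [h] at hmid
    rcases hkc with rfl | rfl | rfl <;> omega

end Vale.Agent.P257.H327

namespace Vale.Agent.P257.H327

/-- Case `k = H0 - 1` small, top digit produced by a carry: the four classes with `k = 1, 2`. -/
theorem mainA2 (p k : ℤ) (hp : 11 ≤ p) (hk : 1 ≤ k)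
    (a0 a1 a2 c0 c1 d0 x0 x1 y0 : ℤ)
    (ha0 : 0 ≤ a0) (ha1 : 0 ≤ a1) (ha2 : 0 ≤ a2) (hc0 : 0 ≤ c0) (hc1 : 0 ≤ c1) (hd0 : 0 ≤ d0)
    (ha0' : a0 ≤ 1) (ha1' : a1 ≤ 1) (ha2' : a2 ≤ 1) (hc0' : c0 ≤ 1)
    (hc1' : c1 ≤ 1) (hd0' : d0 ≤ 1)
    (hx0 : 0 ≤ x0) (hx1 : 0 ≤ x1) (hy0 : 0 ≤ y0)
    (hH0 : a0 + c0 + d0 = 1 + k)
    (hmid : (a1 + c0 + c1 + d0 + x0 + y0 - 1) +
      p * (a2 + c1 + d0 + x1 + y0 - 1) = p ^ 2)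
    (hs : a0+a1+a2+c0+c1+d0 + 2*(x0+x1+y0) + 2*k = 2*k*p+1) :
    (k = 1 ∧ a0 = 0 ∧ a1 = 1 ∧ a2 = 1 ∧ c0 = 1 ∧ c1 = 1 ∧ d0 = 1 ∧ x0 = 0 ∧ x1 = 0 ∧ y0 = p - 3) ∨
    (k = 1 ∧ a0 = 0 ∧ a1 = 0 ∧ a2 = 0 ∧ c0 = 1 ∧ c1 = 1 ∧ d0 = 1 ∧ x0 = 0 ∧ x1 = 0 ∧ y0 = p - 2) ∨
    (k = 2 ∧ a0 = 1 ∧ a1 = 0 ∧ a2 = 0 ∧ c0 = 1 ∧ c1 = 0 ∧ d0 = 1 ∧ x0 = p - 2 ∧ x1 = p - 2 ∧
      y0 = 1) ∨
    (k = 2 ∧ a0 = 1 ∧ a1 = 1 ∧ a2 = 1 ∧ c0 = 1 ∧ c1 = 0 ∧ d0 = 1 ∧ x0 = p - 2 ∧ x1 = p - 2 ∧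
      y0 = 0) := by
  obtain ⟨t, ht⟩ : ∃ t : ℤ, a2 + c1 + d0 + x1 + y0 = p + 1 - t := ⟨p + 1 - (a2 + c1 + d0 + x1 + y0),
    by ring⟩
  have hmid' : a1 + c0 + c1 + d0 + x0 + y0 - 1 = p * t := by
    rw [ht] at hmid; linarith [hmid]
  have hkc : k = 1 ∨ k = 2 := by omega
  have hy : 2 * y0 = 2 * (p - 1) * (t - k) + 2 * p + 3 + (a0 + a1 + a2 + c0 + c1 + d0)
      - 2 * (a1 + c0 + c1 + d0) - 2 * (a2 + c1 + d0) := by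
    have : x0 = p * t + 1 - (a1 + c0 + c1 + d0 + y0) := by linarith
    have h2 : x1 = p + 1 - t - (a2 + c1 + d0 + y0) := by linarith
    subst this
    subst h2
    linarith [hs]
  have ht1 : k - 1 ≤ t := by
    by_contra hc
    push Not at hc
    nlinarith
  have ht2 : t ≤ k := by
    by_contra hc
    push Not at hc
    nlinarith
  have htc : t = k ∨ t = k - 1 := by omega
  rcases hkc with rfl | rfl <;> rcases htc with rfl | rfl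
  · have e1 : a0 = 0 := by omega
    have e2 : c0 = 1 := by omega
    have e3 : d0 = 1 := by omega
    have e4 : c1 = 1 := by omega
    have e5 : a1 = 0 ∨ a1 = 1 := by omega
    rcases e5 with e5 | e5
    · have e6 : a2 = 0 := by omega
      right; left
      refine ⟨rfl, e1, e5, e6, e2, e4, e3, ?_, ?_, ?_⟩ <;> omega
    · have e6 : a2 = 1 := by omega
      left
      refine ⟨rfl, e1, e5, e6, e2, e4, e3, ?_, ?_, ?_⟩ <;> omega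
  · exfalso; omega
  · exfalso; omega
  · have e1 : a0 = 1 := by omega
    have e2 : c0 = 1 := by omega
    have e3 : d0 = 1 := by omega
    have e4 : c1 = 0 := by omega
    have e5 : a1 = 0 ∨ a1 = 1 := by omega
    rcases e5 with e5 | e5
    · have e6 : a2 = 0 := by omega
      right; right; left
      refine ⟨rfl, e1, e5, e6, e2, e4, e3, ?_, ?_, ?_⟩ <;> omega
    · have e6 : a2 = 1 := by omega
      right; right; right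
      refine ⟨rfl, e1, e5, e6, e2, e4, e3, ?_, ?_, ?_⟩ <;> omega

end Vale.Agent.P257.H327
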